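import Crest.Agent.R302.ORAM.OPT
import Crest.Agent.Lib.PT.ListFns
import Crest.Agent.Lib.PT.Arith

/-!
# Polynomial-time functions relative to an oracle: the typed layer

`OPTF f` for `f : Inst → α → β`: one program with queries takes the code of `a` to the code of
`f I a` within `p (sz a + I.sz)` steps.  `OPB f`: `f I a ≤ p (sz a + I.sz)`.
-/

set_option autoImplicit false
set_option linter.dupNamespace false

namespace Crest.Agent.R302.ORAM

open Crest.Agent.R309.RAM
open Crest.Agent.Lib.PT Function

/-- the codes of the elements of `α` -/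
def Dom (α : Type) [PTCode α] : Inst → List Bool → Prop := fun _ x => ∃ a : α, x = enc a

/-- polynomial time relative to the oracle -/
def OPTF {α β : Type} [PTCode α] [PTCode β] (f : Inst → α → β) : Prop :=
  ∃ g, OPT (Dom α) g ∧ ∀ I a, g I (enc a) = enc (f I a)

/-- polynomially bounded in the size of the input and the size of the instance -/
def OPB {α : Type} [PTCode α] (f : Inst → α → ℕ) : Prop :=
  ∃ p : Polynomial ℕ, ∀ I a, f I a ≤ p.eval (sz a + I.sz)

section bounds

variable {α β γ : Type} [PTCode α] [PTCode β] [PTCode γ]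

theorem OPB.mono {f g : Inst → α → ℕ} (hg : OPB g) (h : ∀ I a, f I a ≤ g I a) : OPB f := by
  obtain ⟨p, hp⟩ := hg
  exact ⟨p, fun I a => (h I a).trans (hp I a)⟩

theorem OPB.of_pb {f : α → ℕ} (hf : PB f) : OPB (fun _ a => f a) := by
  obtain ⟨p, hp⟩ := hf
  exact ⟨p, fun I a => (hp a).trans (eval_mono p (by omega))⟩

theorem OPB.const (n : ℕ) : OPB (fun _ (_ : α) => n) := OPB.of_pb (PB.const n)

theorem OPB.inst : OPB (fun I (_ : α) => I.sz) := ⟨Polynomial.X, fun I a => by simp⟩

theorem OPB.n : OPB (fun I (_ : α) => I.n) := OPB.inst.mono (fun I _ => I.hn)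

theorem OPB.sz : OPB (fun _ (a : α) => sz a) := OPB.of_pb PB.sz

theorem OPB.add {f g : Inst → α → ℕ} (hf : OPB f) (hg : OPB g) :
    OPB (fun I a => f I a + g I a) := by
  obtain ⟨p, hp⟩ := hf
  obtain ⟨q, hq⟩ := hg
  exact ⟨p + q, fun I a => by
    simp only [Polynomial.eval_add]; exact Nat.add_le_add (hp I a) (hq I a)⟩

theorem OPB.mul {f g : Inst → α → ℕ} (hf : OPB f) (hg : OPB g) :
    OPB (fun I a => f I a * g I a) := by
  obtain ⟨p, hp⟩ := hf
  obtain ⟨q, hq⟩ := hg
  exact ⟨p * q, fun I a => by
    simp only [Polynomial.eval_mul]; exact Nat.mul_le_mul (hp I a) (hq I a)⟩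

theorem OPB.pow {f : Inst → α → ℕ} (hf : OPB f) (k : ℕ) : OPB (fun I a => f I a ^ k) := by
  induction k with
  | zero => simpa using OPB.const 1
  | succ k ih => simpa [pow_succ] using OPB.mul ih hf

theorem OPB.eval {f : Inst → α → ℕ} (p : Polynomial ℕ) (hf : OPB f) :
    OPB (fun I a => p.eval (f I a)) := by
  obtain ⟨q, hq⟩ := hf
  exact ⟨p.comp q, fun I a => by rw [Polynomial.eval_comp]; exact eval_mono p (hq I a)⟩

/-- polynomial bound on the size of the output -/
theorem OPTF.bound {f : Inst → α → β} (hf : OPTF f) : OPB (fun I a => Crest.Agent.Lib.PT.sz (f I a)) := by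
  obtain ⟨g, hg, h⟩ := hf
  obtain ⟨p, hp⟩ := hg.bound
  exact ⟨p, fun I a => by
    have := hp I (enc a) ⟨a, rfl⟩
    rw [h] at this
    exact this⟩

theorem OPB.comp {f : Inst → β → ℕ} {g : Inst → α → β} (hf : OPB f) (hg : OPTF g) :
    OPB (fun I a => f I (g I a)) := by
  obtain ⟨p, hp⟩ := hf
  exact (OPB.eval p (hg.bound.add OPB.inst)).mono (fun I a => hp I (g I a))

theorem OPB.comp_pb {f : β → ℕ} {g : Inst → α → β} (hf : PB f) (hg : OPTF g) :
    OPB (fun I a => f (g I a)) := (OPB.of_pb hf).comp hg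

end bounds

section basic

variable {α β γ δ : Type} [PTCode α] [PTCode β] [PTCode γ] [PTCode δ]

theorem OPTF.of_eq {f g : Inst → α → β} (hf : OPTF f) (h : ∀ I a, f I a = g I a) : OPTF g := by
  have : f = g := funext fun I => funext (h I)
  rwa [← this]

/-- A polynomial-time function. -/
theorem OPTF.of_ptf {f : α → β} (hf : PTF f) : OPTF (fun _ a => f a) := by
  obtain ⟨g, hg, h⟩ := hf
  exact ⟨_, OPT.of_pt hg, fun _ a => h a⟩

theorem OPTF.const (b : β) : OPTF (fun _ (_ : α) => b) := OPTF.of_ptf (PTF.const b)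

theorem OPTF.id : OPTF (fun _ (a : α) => a) := OPTF.of_ptf PTF.id

theorem OPTF.comp {g : Inst → β → γ} {f : Inst → α → β} (hg : OPTF g) (hf : OPTF f) :
    OPTF (fun I a => g I (f I a)) := by
  obtain ⟨g', hg', hg⟩ := hg
  obtain ⟨f', hf', hf⟩ := hf
  refine ⟨_, hg'.comp hf' ?_, fun I a => by rw [hf, hg]⟩
  rintro I _ ⟨a, rfl⟩
  exact ⟨f I a, hf I a⟩

/-- post-composition with a polynomial-time function -/
theorem OPTF.post {g : β → γ} {f : Inst → α → β} (hg : PTF g) (hf : OPTF f) :
    OPTF (fun I a => g (f I a)) := (OPTF.of_ptf hg).comp hf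

/-- pre-composition with a polynomial-time function -/
theorem OPTF.pre {g : Inst → β → γ} {f : α → β} (hg : OPTF g) (hf : PTF f) :
    OPTF (fun I a => g I (f a)) := hg.comp (OPTF.of_ptf hf)

theorem OPTF.prodMk {f : Inst → α → β} {g : Inst → α → γ} (hf : OPTF f) (hg : OPTF g) :
    OPTF (fun I a => (f I a, g I a)) := by
  obtain ⟨g', hg', hg⟩ := hg
  obtain ⟨f', hf', hf⟩ := hf
  exact ⟨_, OPT.pair hf' hg', fun I a => by rw [hf, hg]; rfl⟩

theorem OPTF.fst {f : Inst → α → β × γ} (hf : OPTF f) : OPTF (fun I a => (f I a).1) :=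
  OPTF.post (g := fun p : β × γ => p.1) PTF.fst hf

theorem OPTF.snd {f : Inst → α → β × γ} (hf : OPTF f) : OPTF (fun I a => (f I a).2) :=
  OPTF.post (g := fun p : β × γ => p.2) PTF.snd hf

/-- a polynomial-time function of two results -/
theorem OPTF.post₂ {g : β → γ → δ} {f : Inst → α → β} {h : Inst → α → γ}
    (hg : PTF (fun p : β × γ => g p.1 p.2)) (hf : OPTF f) (hh : OPTF h) :
    OPTF (fun I a => g (f I a) (h I a)) :=
  OPTF.post (g := fun p : β × γ => g p.1 p.2) hg (hf.prodMk hh)

/-- a function with a parameter applied to a computed parameter and argument -/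
theorem OPTF.comp₂ {g : Inst → β → γ → δ} {f : Inst → α → β} {h : Inst → α → γ}
    (hg : OPTF (fun I (p : β × γ) => g I p.1 p.2)) (hf : OPTF f) (hh : OPTF h) :
    OPTF (fun I a => g I (f I a) (h I a)) :=
  OPTF.comp (g := fun I (p : β × γ) => g I p.1 p.2) hg (hf.prodMk hh)

theorem OPTF.cond {c : Inst → α → Bool} {f g : Inst → α → β} (hc : OPTF c) (hf : OPTF f)
    (hg : OPTF g) : OPTF (fun I a => bif c I a then f I a else g I a) := by
  obtain ⟨c', hc', hc⟩ := hc
  obtain ⟨f', hf', hf⟩ := hf
  obtain ⟨g', hg', hg⟩ := hg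
  refine ⟨_, OPT.ite hc' (hf'.weaken fun I x h => h.1) (hg'.weaken fun I x h => h.1),
    fun I a => ?_⟩
  simp only [hc, enc_bool]
  cases c I a <;> simp [hf, hg]

/-- predicates decidable in polynomial time relative to the oracle -/
def OPTP (p : Inst → α → Prop) : Prop :=
  ∃ f : Inst → α → Bool, OPTF f ∧ ∀ I a, p I a ↔ f I a = true

theorem OPTP.of_ptp {p : α → Prop} (hp : PTPred p) : OPTP (fun _ a => p a) := by
  obtain ⟨f, hf, h⟩ := hp
  exact ⟨_, OPTF.of_ptf hf, fun _ a => h a⟩

theorem OPTP.of_iff {p q : Inst → α → Prop} (hp : OPTP p) (h : ∀ I a, p I a ↔ q I a) :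
    OPTP q := by
  have : p = q := funext fun I => funext fun a => propext (h I a)
  rwa [← this]

theorem OPTP.comp {p : Inst → β → Prop} {f : Inst → α → β} (hp : OPTP p) (hf : OPTF f) :
    OPTP (fun I a => p I (f I a)) := by
  obtain ⟨g, hg, h⟩ := hp
  exact ⟨_, OPTF.comp hg hf, fun I a => h _ _⟩

theorem OPTP.post {p : β → Prop} {f : Inst → α → β} (hp : PTPred p) (hf : OPTF f) :
    OPTP (fun I a => p (f I a)) := (OPTP.of_ptp hp).comp hf

theorem OPTP.toOPTF {p : Inst → α → Prop} [∀ I a, Decidable (p I a)] (hp : OPTP p) :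
    OPTF (fun I a => decide (p I a)) := by
  obtain ⟨f, hf, h⟩ := hp
  exact hf.of_eq (fun I a => by simp [h])

theorem OPTF.toOPTP {f : Inst → α → Bool} (hf : OPTF f) : OPTP (fun I a => f I a = true) :=
  ⟨f, hf, fun _ _ => Iff.rfl⟩

theorem OPTP.not {p : Inst → α → Prop} (hp : OPTP p) : OPTP (fun I a => ¬ p I a) := by
  obtain ⟨f, hf, h⟩ := hp
  exact ⟨_, OPTF.post (g := fun b : Bool => !b) (by fun_prop) hf, fun I a => by simp [h]⟩

theorem OPTP.and {p q : Inst → α → Prop} (hp : OPTP p) (hq : OPTP q) :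
    OPTP (fun I a => p I a ∧ q I a) := by
  obtain ⟨f, hf, h⟩ := hp
  obtain ⟨g, hg, h'⟩ := hq
  exact ⟨_, OPTF.post₂ (g := fun a b : Bool => a && b) (by fun_prop) hf hg,
    fun I a => by simp [h, h']⟩

theorem OPTP.or {p q : Inst → α → Prop} (hp : OPTP p) (hq : OPTP q) :
    OPTP (fun I a => p I a ∨ q I a) := by
  obtain ⟨f, hf, h⟩ := hp
  obtain ⟨g, hg, h'⟩ := hq
  exact ⟨_, OPTF.post₂ (g := fun a b : Bool => a || b) (by fun_prop) hf hg,
    fun I a => by simp [h, h']⟩

theorem OPTF.ite {p : Inst → α → Prop} [∀ I a, Decidable (p I a)] {f g : Inst → α → β}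
    (hc : OPTP p) (hf : OPTF f) (hg : OPTF g) :
    OPTF (fun I a => if p I a then f I a else g I a) :=
  (OPTF.cond hc.toOPTF hf hg).of_eq (fun I a => by by_cases h : p I a <;> simp [h])

/-! ### case distinctions -/

theorem OPTF.optionCasesOn {s : Inst → α → Option β} {f : Inst → α → δ}
    {g : Inst → α → β → δ} (hs : OPTF s) (hf : OPTF f)
    (hg : OPTF (fun I (p : α × β) => g I p.1 p.2)) :
    OPTF (fun I a => match s I a with | none => f I a | some b => g I a b) := by
  obtain ⟨s', hs', hs⟩ := hs
  obtain ⟨f', hf', hf⟩ := hf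
  obtain ⟨g', hg', hg⟩ := hg
  refine ⟨_, OPT.ite hs' (g := f') (f := fun I x => g' I
    (Crest.Agent.Lib.PT.pair x ((s' I x).tail))) ?_ (hf'.weaken fun I x h => h.1),
    fun I a => ?_⟩
  · refine hg'.comp (OPT.pair (OPT.of_pt PT.id) ((OPT.of_pt (D := fun _ _ => True)
      (PT.tail' PT.id)).comp (hs'.weaken fun I x h => h.1) fun _ _ _ => trivial)) ?_
    rintro I x ⟨⟨a, rfl⟩, h⟩
    rw [hs] at h
    rcases hb : s I a with _ | b
    · rw [hb] at h
      simp at h
    · exact ⟨(a, b), by rw [hs, hb]; simp⟩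
  · simp only [hs]
    cases h : s I a with
    | none => simpa [h] using hf I a
    | some c => simpa [h] using hg I (a, c)

theorem OPTF.sumCasesOn {s : Inst → α → β ⊕ γ} {f : Inst → α → β → δ}
    {g : Inst → α → γ → δ} (hs : OPTF s) (hf : OPTF (fun I (p : α × β) => f I p.1 p.2))
    (hg : OPTF (fun I (p : α × γ) => g I p.1 p.2)) :
    OPTF (fun I a => match s I a with | Sum.inl b => f I a b | Sum.inr c => g I a c) := by
  obtain ⟨s', hs', hs⟩ := hs
  obtain ⟨f', hf', hf⟩ := hf
  obtain ⟨g', hg', hg⟩ := hg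
  have htl : OPT (Dom α) (fun I x => Crest.Agent.Lib.PT.pair x ((s' I x).tail)) :=
    OPT.pair (OPT.of_pt PT.id) ((OPT.of_pt (D := fun _ _ => True)
      (PT.tail' PT.id)).comp hs' fun _ _ _ => trivial)
  refine ⟨_, OPT.ite hs' (f := fun I x => g' I (Crest.Agent.Lib.PT.pair x ((s' I x).tail)))
    (g := fun I x => f' I (Crest.Agent.Lib.PT.pair x ((s' I x).tail))) ?_ ?_, fun I a => ?_⟩
  · refine hg'.comp (htl.weaken fun I x h => h.1) ?_
    rintro I x ⟨⟨a, rfl⟩, h⟩
    rw [hs] at h
    rcases hb : s I a with b | b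
    · rw [hb] at h
      simp at h
    · exact ⟨(a, b), by rw [hs, hb]; simp⟩
  · refine hf'.comp (htl.weaken fun I x h => h.1) ?_
    rintro I x ⟨⟨a, rfl⟩, h⟩
    rw [hs] at h
    rcases hb : s I a with b | b
    · exact ⟨(a, b), by rw [hs, hb]; simp⟩
    · rw [hb] at h
      simp at h
  · simp only [hs]
    cases h : s I a with
    | inl b => simpa [h] using hf I (a, b)
    | inr c => simpa [h] using hg I (a, c)

theorem OPTF.listCasesOn {s : Inst → α → List β} {f : Inst → α → δ}
    {g : Inst → α → β → List β → δ} (hs : OPTF s) (hf : OPTF f)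
    (hg : OPTF (fun I (p : α × β × List β) => g I p.1 p.2.1 p.2.2)) :
    OPTF (fun I a => match s I a with | [] => f I a | b :: l => g I a b l) := by
  have h0 : PTF (fun l : List β => match l with | [] => none | b :: l => some (b, l)) :=
    PTF.listCasesOn (s := fun l : List β => l) (f := fun _ => none)
        (g := fun _ b l => some (b, l)) PTF.id (PTF.const _) (by fun_prop)
  exact (OPTF.optionCasesOn (s := fun I a => (match s I a with | [] => none | b :: l => some (b, l)))
    (f := f) (g := fun I a (q : β × List β) => g I a q.1 q.2)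
    (OPTF.post (g := fun l : List β => match l with | [] => none | b :: l => some (b, l)) h0 hs)
    hf hg).of_eq (fun I a => by cases s I a <;> rfl)

end basic

/-! ### the query -/

section query

variable {α : Type} [PTCode α]

/-- query number `b` on the set coded by a bit string -/
theorem OPTF.ansBits {l : Inst → α → Bits} (b : Bool) (hl : OPTF l) :
    OPTF (fun I a => I.ans b (l I a).val) := by
  have h : OPTF (fun I (l : Bits) => I.ans b l.val) := by
    refine ⟨_, (OPT.of_pt (D := fun _ _ => True) PT.fst).comp (OPT.qry (D := Dom Bits) b)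
      fun _ _ _ => trivial, fun I a => ?_⟩
    simp only [Inst.qry, fst_pair]
    rfl
  exact h.comp hl

/-- query number `b` on the set coded by a list of booleans -/
theorem OPTF.ans {l : Inst → α → List Bool} (b : Bool) (hl : OPTF l) :
    OPTF (fun I a => I.ans b (l I a)) :=
  OPTF.ansBits (l := fun I a => Bits.mk (l I a)) b
    (OPTF.post (g := fun l : List Bool => Bits.mk l) (by fun_prop) hl)

/-- the number of the query is also an input -/
theorem OPTF.ans₂ {b : Inst → α → Bool} {l : Inst → α → List Bool} (hb : OPTF b) (hl : OPTF l) :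
    OPTF (fun I a => I.ans (b I a) (l I a)) :=
  (OPTF.cond hb (OPTF.ans true hl) (OPTF.ans false hl)).of_eq
    (fun I a => by cases b I a <;> rfl)

end query

/-! ### unary numbers, iteration and folds -/

section iterate

variable {α β γ δ : Type} [PTCode α] [PTCode β] [PTCode γ] [PTCode δ]

/-- unary polynomial-time functions -/
def OPTU (n : Inst → α → ℕ) : Prop := OPTF (fun I a => Un.mk (n I a))

theorem OPTU.of_eq {f g : Inst → α → ℕ} (hf : OPTU f) (h : ∀ I a, f I a = g I a) : OPTU g := by
  have : f = g := funext fun I => funext (h I)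
  rwa [← this]

theorem OPTU.of_ptu {n : α → ℕ} (hn : PTU n) : OPTU (fun _ a => n a) := OPTF.of_ptf hn

theorem OPTU.const (n : ℕ) : OPTU (fun _ (_ : α) => n) := OPTF.const _

theorem OPTU.post {n : β → ℕ} {f : Inst → α → β} (hn : PTU n) (hf : OPTF f) :
    OPTU (fun I a => n (f I a)) := OPTF.post (g := fun b => Un.mk (n b)) hn hf

theorem OPTU.comp {n : Inst → β → ℕ} {f : Inst → α → β} (hn : OPTU n) (hf : OPTF f) :
    OPTU (fun I a => n I (f I a)) := OPTF.comp (g := fun I b => Un.mk (n I b)) hn hf

theorem OPTU.opb {n : Inst → α → ℕ} (hn : OPTU n) : OPB n :=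
  (OPTF.bound hn).mono (fun I a => by simp)

theorem OPTU.toOPTF {n : Inst → α → ℕ} (hn : OPTU n) : OPTF n :=
  OPTF.post (g := fun u : Un => u.val) (f := fun I a => Un.mk (n I a))
    (PTU.toPTF (PTU.val PTF.id)) hn

/-- the size of the ground set is readable -/
theorem OPTU.ground : OPTU (fun I (_ : α) => I.n) :=
  ⟨_, OPT.ground, fun I a => by rw [enc_un]⟩

theorem OPTF.ground : OPTF (fun I (_ : α) => I.n) := OPTU.ground.toOPTF

theorem OPTF.iterate {n : Inst → γ → ℕ} {f : Inst → γ → α → α} {a : Inst → γ → α}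
    (hn : OPTU n) (hf : OPTF (fun I (p : γ × α) => f I p.1 p.2)) (ha : OPTF a)
    {B : Inst → γ → ℕ} (hB : OPB B)
    (hb : ∀ I c, ∀ i ≤ n I c, sz ((f I c)^[i] (a I c)) ≤ B I c) :
    OPTF (fun I c => (f I c)^[n I c] (a I c)) := by
  obtain ⟨p, hp⟩ := hB
  obtain ⟨nR, hnR, hn⟩ := hn
  obtain ⟨fR, hfR, hf⟩ := hf
  obtain ⟨aR, haR, ha⟩ := ha
  let S : Inst → List Bool → List Bool := fun I s =>
    Crest.Agent.Lib.PT.pair (Crest.Agent.Lib.PT.fst s) (fR I s)
  have hS : OPT (Dom (γ × α)) S := OPT.pair (OPT.of_pt PT.fst) hfR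
  have key : ∀ I c i, (S I)^[i] (Crest.Agent.Lib.PT.pair (enc c) (enc (a I c))) =
      Crest.Agent.Lib.PT.pair (enc c) (enc ((f I c)^[i] (a I c))) := by
    intro I c i
    induction i with
    | zero => rfl
    | succ i ih =>
      rw [Function.iterate_succ_apply', ih, Function.iterate_succ_apply']
      have h1 := hf I (c, (f I c)^[i] (a I c))
      simp only [enc_prod] at h1
      simp only [S, fst_pair, h1]
  have hit : OPT (Dom γ) (fun I x => (S I)^[(nR I x).length]
      (Crest.Agent.Lib.PT.pair x (aR I x))) := by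
    refine OPT.iter' (D' := Dom (γ × α)) hS hnR (OPT.pair (OPT.of_pt PT.id) haR) ?_
      ⟨2 * Polynomial.X + 1 + p, ?_⟩
    · rintro I _ ⟨c, rfl⟩ i _
      rw [ha, key]
      exact ⟨(c, (f I c)^[i] (a I c)), rfl⟩
    · rintro I _ ⟨c, rfl⟩ i hi
      rw [hn, enc_un, List.length_replicate] at hi
      rw [ha, key, length_pair]
      have h1 := (hb I c i hi).trans (hp I c)
      have h2 : (enc c).length = sz c := rfl
      have h3 : (enc ((f I c)^[i] (a I c))).length = sz ((f I c)^[i] (a I c)) := rfl
      rw [h2, h3]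
      simp only [Polynomial.eval_add, Polynomial.eval_mul, Polynomial.eval_ofNat,
        Polynomial.eval_X, Polynomial.eval_one]
      omega
  refine ⟨_, (OPT.of_pt (D := fun _ _ => True) PT.snd).comp hit fun _ _ _ => trivial,
    fun I c => ?_⟩
  simp only [hn, ha, enc_un, List.length_replicate, key, snd_pair]

/-- Left fold with a parameter. -/
theorem OPTF.foldl {l : Inst → γ → List α} {f : Inst → γ → β → α → β} {b : Inst → γ → β}
    (hl : OPTF l) (hf : OPTF (fun I (p : γ × β × α) => f I p.1 p.2.1 p.2.2)) (hb : OPTF b)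
    {B : Inst → γ → ℕ} (hB : OPB B)
    (hbd : ∀ I c, ∀ i ≤ (l I c).length,
      sz (((l I c).take i).foldl (f I c) (b I c)) ≤ B I c) :
    OPTF (fun I c => (l I c).foldl (f I c) (b I c)) := by
  have hstep : OPTF (fun I (q : γ × (List α × β)) =>
      match q.2.1 with
      | [] => q.2
      | a :: t => (t, f I q.1 q.2.2 a)) := by
    refine OPTF.listCasesOn (s := fun _ (p : γ × List α × β) => p.2.1) (f := fun _ p => p.2)
      (g := fun I p a t => (t, f I p.1 p.2.2 a)) (OPTF.of_ptf (by fun_prop))
      (OPTF.of_ptf (by fun_prop)) ?_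
    refine OPTF.prodMk (OPTF.of_ptf (by fun_prop)) ?_
    exact OPTF.pre (g := fun I (p : γ × β × α) => f I p.1 p.2.1 p.2.2)
      (f := fun p : (γ × List α × β) × α × List α => (p.1.1, p.1.2.2, p.2.1)) hf (by fun_prop)
  have key : ∀ (I : Inst) (c : γ) (i : ℕ), (fun (s : List α × β) =>
      match s.1 with
      | [] => s
      | a :: t => (t, f I c s.2 a))^[i] (l I c, b I c) =
      ((l I c).drop i, ((l I c).take i).foldl (f I c) (b I c)) := by
    intro I c i
    induction i with
    | zero => simp
    | succ i ih =>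
      rw [Function.iterate_succ_apply', ih]
      rcases hd : (l I c).drop i with _ | ⟨a, t⟩
      · have h1 : (l I c).length ≤ i := by simpa using hd
        simp [List.take_of_length_le h1, List.take_of_length_le (Nat.le_succ_of_le h1),
          List.drop_of_length_le (Nat.le_succ_of_le h1)]
      · have h1 : i < (l I c).length := by
          by_contra h
          rw [List.drop_of_length_le (by omega)] at hd
          simp at hd
        have h2 : (l I c).drop (i + 1) = t := by
          rw [← List.tail_drop, hd]; rfl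
        have h3 : (l I c).take (i + 1) = (l I c).take i ++ [a] := by
          rw [List.take_add_one]
          have : (l I c)[i]? = some a := by
            have := congrArg List.head? hd
            simpa [List.head?_drop] using this
          simp [this]
        simp [h2, h3]
  have hlen : OPTU (fun I c => (l I c).length) :=
    OPTU.post (n := fun l : List α => l.length) (PTU.length PTF.id) hl
  have h := OPTF.iterate (f := fun I (c : γ) (s : List α × β) =>
      match s.1 with
      | [] => s
      | a :: t => (t, f I c s.2 a)) hlen hstep (hl.prodMk hb)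
    (B := fun I c => 2 * sz (l I c) + 1 + B I c)
    (((OPB.const 2).mul hl.bound |>.add (OPB.const 1)).add hB) (fun I c i hi => by
      rw [key]
      simp only [sz_prod]
      have h1 := sz_drop_le (l I c) i
      have h2 := hbd I c i hi
      omega)
  refine OPTF.of_eq (OPTF.snd h) (fun I c => ?_)
  rw [key]
  simp

/-- map with a parameter -/
theorem OPTF.map {l : Inst → γ → List α} {f : Inst → γ → α → β} (hl : OPTF l)
    (hf : OPTF (fun I (p : γ × α) => f I p.1 p.2)) :
    OPTF (fun I c => (l I c).map (f I c)) := by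
  obtain ⟨p, hp⟩ := hf.bound
  have h : OPTF (fun I c => (l I c).foldl (fun acc a => f I c a :: acc) []) := by
    refine OPTF.foldl (f := fun I c acc a => f I c a :: acc) hl ?_ (OPTF.const [])
      (B := fun I c => sz (l I c) * (2 * p.eval (2 * sz c + 1 + sz (l I c) + I.sz) + 1)) ?_ ?_
    · exact OPTF.post₂ (g := fun (b : β) (l : List β) => b :: l) (by fun_prop)
        (OPTF.pre (g := fun I (p : γ × α) => f I p.1 p.2)
          (f := fun p : γ × List β × α => (p.1, p.2.2)) hf (by fun_prop))
        (OPTF.of_ptf (by fun_prop))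
    · exact hl.bound.mul (((OPB.const 2).mul (OPB.eval p ((((OPB.const 2).mul OPB.sz).add
        (OPB.const 1) |>.add hl.bound).add OPB.inst))).add (OPB.const 1))
    · intro I c i hi
      rw [foldl_cons_map]
      simp only [List.append_nil, sz_reverse]
      refine (sz_list_le (m := p.eval (2 * sz c + 1 + sz (l I c) + I.sz)) ?_).trans ?_
      · intro b hb
        rw [List.mem_map] at hb
        obtain ⟨a, ha, rfl⟩ := hb
        refine (hp I (c, a)).trans (eval_mono p ?_)
        rw [sz_prod]
        have := sz_mem_le (List.mem_of_mem_take ha)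
        simp only
        omega
      · refine Nat.mul_le_mul_right _ ?_
        rw [List.length_map, List.length_take]
        exact (Nat.min_le_right _ _).trans (length_le_sz _)
  exact (OPTF.post (g := fun l : List β => l.reverse) (by fun_prop) h).of_eq (fun I c => by
    rw [foldl_cons_map]
    simp)

/-- filter with a parameter -/
theorem OPTF.filter {l : Inst → γ → List α} {p : Inst → γ → α → Bool} (hl : OPTF l)
    (hp : OPTF (fun I (q : γ × α) => p I q.1 q.2)) :
    OPTF (fun I c => (l I c).filter (p I c)) := by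
  have h1 : OPTF (fun I c => (l I c).map (fun a => (a, p I c a))) :=
    OPTF.map (f := fun I c a => (a, p I c a)) hl (OPTF.prodMk (OPTF.of_ptf (by fun_prop)) hp)
  refine (OPTF.post (g := fun l : List (α × Bool) => (l.filter (fun q => q.2)).map (fun q => q.1))
    ?_ h1).of_eq (fun I c => ?_)
  · exact PTF.map (f := fun _ (q : α × Bool) => q.1) (PTF.filter (p := fun _ (q : α × Bool) => q.2)
      PTF.id (by pt_prop)) (by pt_prop)
  · induction l I c with
    | nil => rfl
    | cons a t ih =>
      simp only [List.map_cons, List.filter_cons]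
      cases h : p I c a
      · simpa using ih
      · simpa using ih

theorem OPTF.any {l : Inst → γ → List α} {p : Inst → γ → α → Bool} (hl : OPTF l)
    (hp : OPTF (fun I (q : γ × α) => p I q.1 q.2)) :
    OPTF (fun I c => (l I c).any (p I c)) := by
  refine (OPTF.post (g := fun l : List Bool => l.any (fun b => b)) ?_
    (OPTF.map hl hp)).of_eq (fun I c => by rw [List.any_map]; rfl)
  exact PTF.any (p := fun _ b => b) PTF.id (by pt_prop)

theorem OPTF.all {l : Inst → γ → List α} {p : Inst → γ → α → Bool} (hl : OPTF l)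
    (hp : OPTF (fun I (q : γ × α) => p I q.1 q.2)) :
    OPTF (fun I c => (l I c).all (p I c)) := by
  refine (OPTF.post (g := fun l : List Bool => l.all (fun b => b)) ?_
    (OPTF.map hl hp)).of_eq (fun I c => by rw [List.all_map]; rfl)
  exact PTF.all (p := fun _ b => b) PTF.id (by pt_prop)

theorem OPTF.flatMap {l : Inst → γ → List α} {f : Inst → γ → α → List β} (hl : OPTF l)
    (hf : OPTF (fun I (p : γ × α) => f I p.1 p.2)) :
    OPTF (fun I c => (l I c).flatMap (f I c)) := by
  refine (OPTF.post (g := fun l : List (List β) => l.flatten) (PTF.flatten PTF.id)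
    (OPTF.map hl hf)).of_eq (fun I c => by rw [List.flatMap])

theorem OPTF.find? {l : Inst → γ → List α} {p : Inst → γ → α → Bool} (hl : OPTF l)
    (hp : OPTF (fun I (q : γ × α) => p I q.1 q.2)) :
    OPTF (fun I c => (l I c).find? (p I c)) := by
  refine (OPTF.post (g := fun l : List α => l.head?) (by fun_prop)
    (OPTF.filter hl hp)).of_eq (fun I c => by rw [List.head?_filter])

end iterate

end Crest.Agent.R302.ORAM
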