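import Crest.Agent.R302.ORAM.Subst

/-!
# S0461 and S0462 from one pure statement
-/

set_option autoImplicit false
set_option linter.dupNamespace false

namespace Crest.Agent.R302.ORAM

open Crest.OracleRAM Crest.Polymatroid
open Crest.Agent.R309 (Tape.pr)
open Crest.Agent.Lib.PT Function

/-- the query function of two rank functions -/
def rq {n : ℕ} (r₁ r₂ : Finset (Fin n) → ℕ) : Bool → List Bool → ℕ :=
  fun b l => (if b then r₂ else r₁) (lset n l)

/-- The estimator `G` is computable relative to every query function that is. -/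
def RelComp (G : (Bool → List Bool → ℕ) → CIn × List Bool → ℚ) : Prop :=
  ∀ Q : Inst → Bool → List Bool → ℕ, OPTF (fun I (p : Bool × List Bool) => Q I p.1 p.2) →
    OPTF (fun I (p : CIn × List Bool) => G (Q I) p)

/-- **The pure specification** of the estimator `G` using `N` random bits. -/
def CountSpec (G : (Bool → List Bool → ℕ) → CIn × List Bool → ℚ) (N : CIn → ℕ) : Prop :=
  ∀ (n R : ℕ) (r₁ r₂ : Finset (Fin n) → ℕ) (ε δ : ℚ),
    IsPolymatroidRank r₁ → IsPolymatroidRank r₂ → r₁ Finset.univ = R → r₂ Finset.univ = R →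
    0 < ε → ε < 1 → 0 < δ → δ < 1 →
    (∀ τ : List Bool, τ.length = N (cin n R ε δ) → 0 ≤ G (rq r₁ r₂) (cin n R ε δ, τ)) ∧
    (numCommonIntBases R r₁ r₂ = 0 → ∀ τ : List Bool, τ.length = N (cin n R ε δ) →
      G (rq r₁ r₂) (cin n R ε δ, τ) = 0) ∧
    1 - (δ : ℝ) ≤ Crest.Agent.R309.Tape.pr (N (cin n R ε δ)) (fun τ =>
      (1 - ε) * numCommonIntBases R r₁ r₂ ≤ G (rq r₁ r₂) (cin n R ε δ, τ) ∧
        G (rq r₁ r₂) (cin n R ε δ, τ) ≤ (1 + ε) * numCommonIntBases R r₁ r₂)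

/-- **S0461** -/
theorem s0461_of {G : (Bool → List Bool → ℕ) → CIn × List Bool → ℚ} {N : CIn → ℕ}
    (hG : RelComp G) (hN : PTU N) (hS : CountSpec G N) :
    ∃ (P : Crest.OracleRAM.OProgram) (c₀ C d : ℕ),
      ∀ (n R : ℕ) (r₁ r₂ : Finset (Fin n) → ℕ) (ε δ : ℚ),
        IsPolymatroidRank r₁ → IsPolymatroidRank r₂ → r₁ Finset.univ = R → r₂ Finset.univ = R →
        0 < ε → ε < 1 → 0 < δ → δ < 1 →
        (∀ ρ : ℕ → ℕ, (Crest.OracleRAM.orun P n (fun b => if b then r₂ else r₁)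
            (c₀ * Nat.clog 2 (n + R + ε.num.natAbs + ε.den + δ.num.natAbs + δ.den + 2)) ρ
            (countInput n R ε δ) (C * (sizeParam n R ε δ + 1) ^ d)).cfg.halted = true) ∧
        (∀ ρ : ℕ → ℕ, ∃ z : ℚ, 0 ≤ z ∧
          Crest.OracleRAM.decodeRat
              (c₀ * Nat.clog 2 (n + R + ε.num.natAbs + ε.den + δ.num.natAbs + δ.den + 2))
              (Crest.OracleRAM.orun P n (fun b => if b then r₂ else r₁)
                (c₀ * Nat.clog 2 (n + R + ε.num.natAbs + ε.den + δ.num.natAbs + δ.den + 2)) ρ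
                (countInput n R ε δ) (C * (sizeParam n R ε δ + 1) ^ d)).cfg.output = some z) ∧
        (numCommonIntBases R r₁ r₂ = 0 → ∀ ρ : ℕ → ℕ,
          Crest.OracleRAM.decodeRat
              (c₀ * Nat.clog 2 (n + R + ε.num.natAbs + ε.den + δ.num.natAbs + δ.den + 2))
              (Crest.OracleRAM.orun P n (fun b => if b then r₂ else r₁)
                (c₀ * Nat.clog 2 (n + R + ε.num.natAbs + ε.den + δ.num.natAbs + δ.den + 2)) ρ
                (countInput n R ε δ) (C * (sizeParam n R ε δ + 1) ^ d)).cfg.output = some 0) ∧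
        1 - (δ : ℝ) ≤ Crest.OracleRAM.oprobAfter P n (fun b => if b then r₂ else r₁)
            (c₀ * Nat.clog 2 (n + R + ε.num.natAbs + ε.den + δ.num.natAbs + δ.den + 2))
            (countInput n R ε δ) (C * (sizeParam n R ε δ + 1) ^ d)
            (fun c => ∃ z : ℚ, Crest.OracleRAM.decodeRat
                (c₀ * Nat.clog 2 (n + R + ε.num.natAbs + ε.den + δ.num.natAbs + δ.den + 2))
                c.cfg.output = some z ∧
              (1 - ε) * numCommonIntBases R r₁ r₂ ≤ z ∧ z ≤ (1 + ε) * numCommonIntBases R r₁ r₂) := by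
  have hQ : OPTF (fun I (p : Bool × List Bool) => I.ans p.1 p.2) :=
    OPTF.ans₂ (OPTF.of_ptf PTF.fst) (OPTF.of_ptf PTF.snd)
  obtain ⟨P, c₀, C, d, hP⟩ := fpras_of (hG (fun I b l => I.ans b l) hQ) hN
  refine ⟨P, c₀, C, d, ?_⟩
  intro n R r₁ r₂ ε δ h1 h2 hR1 hR2 hε hε1 hδ hδ1
  obtain ⟨s1, s2, s3⟩ := hS n R r₁ r₂ ε δ h1 h2 hR1 hR2 hε hε1 hδ hδ1
  have hO : ∀ (b : Bool) (A : Finset (Fin n)), (if b then r₂ else r₁) A ≤ max R 1 := by
    intro b A
    refine le_trans ?_ (le_max_left _ _)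
    cases b
    · exact (h1.2.1 A Finset.univ (Finset.subset_univ _)).trans_eq hR1
    · exact (h2.2.1 A Finset.univ (Finset.subset_univ _)).trans_eq hR2
  obtain ⟨g1, g2, g3⟩ := hP n R (fun b => if b then r₂ else r₁) hO ε δ hε hε1 hδ hδ1 s1
  refine ⟨g1, ?_, ?_, ?_⟩
  · intro ρ
    obtain ⟨τ, hτ, hd⟩ := g2 ρ
    exact ⟨_, s1 τ hτ, hd⟩
  · intro h0 ρ
    obtain ⟨τ, hτ, hd⟩ := g2 ρ
    have : G (rq r₁ r₂) (cin n R ε δ, τ) = 0 := s2 h0 τ hτ
    rw [← this]
    exact hd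
  · have := g3 (fun z => (1 - ε) * numCommonIntBases R r₁ r₂ ≤ z ∧
      z ≤ (1 + ε) * numCommonIntBases R r₁ r₂)
    exact s3.trans_eq this.symm

theorem indepOracle_ne {n : ℕ} (M₁ M₂ : Matroid (Fin n)) (b : Bool) (A : Finset (Fin n)) :
    indepOracle M₁ M₂ b A ≠ 0 ↔ (if b then M₂ else M₁).Indep (A : Set (Fin n)) := by
  unfold indepOracle
  split <;> simp_all

theorem indepOracle_le {n : ℕ} (M₁ M₂ : Matroid (Fin n)) (b : Bool) (A : Finset (Fin n)) :
    indepOracle M₁ M₂ b A ≤ 1 := by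
  classical
  unfold indepOracle
  by_cases h : (if b then M₂ else M₁).Indep (A : Set (Fin n))
  · rw [if_pos h]
  · rw [if_neg h]; exact Nat.zero_le 1

/-- **S0462** -/
theorem s0462_of {G : (Bool → List Bool → ℕ) → CIn × List Bool → ℚ} {N : CIn → ℕ}
    (hG : RelComp G) (hN : PTU N) (hS : CountSpec G N) :
    ∃ (P : Crest.OracleRAM.OProgram) (c₀ C d : ℕ),
      ∀ (n r : ℕ) (M₁ M₂ : Matroid (Fin n)) (ε δ : ℚ),
        M₁.E = Set.univ → M₂.E = Set.univ → M₁.eRank = r → M₂.eRank = r →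
        0 < ε → ε < 1 → 0 < δ → δ < 1 →
        (∀ ρ : ℕ → ℕ, (Crest.OracleRAM.orun P n (indepOracle M₁ M₂)
            (c₀ * Nat.clog 2 (n + r + ε.num.natAbs + ε.den + δ.num.natAbs + δ.den + 2)) ρ
            (countInput n r ε δ) (C * (sizeParam n r ε δ + 1) ^ d)).cfg.halted = true) ∧
        (∀ ρ : ℕ → ℕ, ∃ z : ℚ, 0 ≤ z ∧
          Crest.OracleRAM.decodeRat
              (c₀ * Nat.clog 2 (n + r + ε.num.natAbs + ε.den + δ.num.natAbs + δ.den + 2))
              (Crest.OracleRAM.orun P n (indepOracle M₁ M₂)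
                (c₀ * Nat.clog 2 (n + r + ε.num.natAbs + ε.den + δ.num.natAbs + δ.den + 2)) ρ
                (countInput n r ε δ) (C * (sizeParam n r ε δ + 1) ^ d)).cfg.output = some z) ∧
        (numCommonBases M₁ M₂ = 0 → ∀ ρ : ℕ → ℕ,
          Crest.OracleRAM.decodeRat
              (c₀ * Nat.clog 2 (n + r + ε.num.natAbs + ε.den + δ.num.natAbs + δ.den + 2))
              (Crest.OracleRAM.orun P n (indepOracle M₁ M₂)
                (c₀ * Nat.clog 2 (n + r + ε.num.natAbs + ε.den + δ.num.natAbs + δ.den + 2)) ρ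
                (countInput n r ε δ) (C * (sizeParam n r ε δ + 1) ^ d)).cfg.output = some 0) ∧
        1 - (δ : ℝ) ≤ Crest.OracleRAM.oprobAfter P n (indepOracle M₁ M₂)
            (c₀ * Nat.clog 2 (n + r + ε.num.natAbs + ε.den + δ.num.natAbs + δ.den + 2))
            (countInput n r ε δ) (C * (sizeParam n r ε δ + 1) ^ d)
            (fun c => ∃ z : ℚ, Crest.OracleRAM.decodeRat
                (c₀ * Nat.clog 2 (n + r + ε.num.natAbs + ε.den + δ.num.natAbs + δ.den + 2))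
                c.cfg.output = some z ∧
              (1 - ε) * numCommonBases M₁ M₂ ≤ z ∧ z ≤ (1 + ε) * numCommonBases M₁ M₂) := by
  obtain ⟨P, c₀, C, d, hP⟩ := fpras_of (hG (fun I b l => rkL (I.ans b) I.n l) optf_rkL) hN
  refine ⟨P, c₀, C, d, ?_⟩
  intro n r M₁ M₂ ε δ hE1 hE2 hR1 hR2 hε hε1 hδ hδ1
  obtain ⟨s1, s2, s3⟩ := hS n r (mrk M₁) (mrk M₂) ε δ (mrk_isPolymatroidRank M₁)
    (mrk_isPolymatroidRank M₂) (mrk_univ hE1 hR1) (mrk_univ hE2 hR2) hε hε1 hδ hδ1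
  rw [count_mrk hR1 hR2] at s2 s3
  have hO : ∀ (b : Bool) (A : Finset (Fin n)), indepOracle M₁ M₂ b A ≤ max r 1 := fun b A =>
    (indepOracle_le M₁ M₂ b A).trans (le_max_right _ _)
  have hI : (fun (b : Bool) (l : List Bool) => rkL ((mkI (indepOracle M₁ M₂) hO ε δ).ans b)
      (mkI (indepOracle M₁ M₂) hO ε δ).n l) = rq (mrk M₁) (mrk M₂) := by
    funext b l
    show rkL (fun l => indepOracle M₁ M₂ b (lset n l)) n l = _
    cases b
    · exact rkL_eq (M := M₁) hE1 (fun l => indepOracle_ne M₁ M₂ false _) l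
    · exact rkL_eq (M := M₂) hE2 (fun l => indepOracle_ne M₁ M₂ true _) l
  rw [← hI] at s1 s2 s3
  obtain ⟨g1, g2, g3⟩ := hP n r (indepOracle M₁ M₂) hO ε δ hε hε1 hδ hδ1 s1
  refine ⟨g1, ?_, ?_, ?_⟩
  · intro ρ
    obtain ⟨τ, hτ, hd⟩ := g2 ρ
    exact ⟨_, s1 τ hτ, hd⟩
  · intro h0 ρ
    obtain ⟨τ, hτ, hd⟩ := g2 ρ
    rw [← s2 h0 τ hτ]
    exact hd
  · have := g3 (fun z => (1 - ε) * numCommonBases M₁ M₂ ≤ z ∧ z ≤ (1 + ε) * numCommonBases M₁ M₂)
    exact s3.trans_eq this.symm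

end Crest.Agent.R302.ORAM
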