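import Crest.Agent.R302.ORAM.Lang

/-!
# Stack programs with oracle queries

* `Inst`: an oracle instance (`n`, the two set functions, a size bound).
* `OCmd`, `OExec`: the stack language of `Lib.PT` with one query instruction.
* `otr`: translation to oracle programs, `oexec_tr`: simulation.
-/

set_option autoImplicit false

namespace Crest.Agent.R302.ORAM

open Crest.WordRAM hiding init
open Crest.OracleRAM
open Crest.Agent.R309.RAM
open Crest.Agent.Lib.PT Function

/-- an oracle instance -/
structure Inst where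
  /-- size of the ground set -/
  n : ℕ
  /-- the two set functions -/
  O : Orc n
  /-- size bound -/
  sz : ℕ
  /-- the ground set is small -/
  hn : n ≤ sz
  /-- the answers are small -/
  hO : ∀ b A, (O b A).size ≤ sz

/-- the subset of `Fin n` given by a list of bits -/
def lset (n : ℕ) (l : List Bool) : Finset (Fin n) :=
  Finset.univ.filter fun j : Fin n => l[(j : ℕ)]? = some true

/-- the answer to the query `b`, `l` -/
def Inst.ans (I : Inst) (b : Bool) (l : List Bool) : ℕ := I.O b (lset I.n l)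

theorem Inst.ans_size (I : Inst) (b : Bool) (l : List Bool) : (I.ans b l).size ≤ I.sz := I.hO _ _

/-- the answer as a string -/
def Inst.qry (I : Inst) (b : Bool) (l : List Bool) : List Bool := pair (I.ans b l).bits []

/-- stack programs with queries -/
inductive OCmd
  | cmd (c : Cmd)
  | query (b : Bool) (k : ℕ)
  | ground (k : ℕ)
  | seq (c d : OCmd)
  | ite (k : ℕ) (e c d : OCmd)
  | loop (k : ℕ) (c : OCmd)

/-- a bound on the stacks used -/
def OCmd.maxVar : OCmd → ℕ
  | cmd c => c.maxVar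
  | query _ k => k
  | ground k => k
  | seq c d => max c.maxVar d.maxVar
  | ite k e c d => max k (max e.maxVar (max c.maxVar d.maxVar))
  | loop k c => max k c.maxVar

/-- big-step semantics -/
inductive OExec (I : Inst) : OCmd → Store → Store → ℕ → Prop
  | cmd {c : Cmd} {s s' : Store} {t : ℕ} : Exec c s s' t → OExec I (.cmd c) s s' t
  | query (b : Bool) (k : ℕ) (s : Store) :
      OExec I (.query b k) s (update s k (I.qry b (s k)))
        ((s k).length + I.n + 2 * (I.ans b (s k)).size + 2)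
  | ground (k : ℕ) (s : Store) :
      OExec I (.ground k) s (update s k (List.replicate I.n true ++ s k)) (I.n + 1)
  | seq {c d : OCmd} {s s' s'' : Store} {t t' : ℕ} :
      OExec I c s s' t → OExec I d s' s'' t' → OExec I (.seq c d) s s'' (t + t')
  | ite_nil {k : ℕ} {e c d : OCmd} {s s' : Store} {t : ℕ} :
      s k = [] → OExec I e s s' t → OExec I (.ite k e c d) s s' (1 + t)
  | ite_true {k : ℕ} {e c d : OCmd} {s s' : Store} {t : ℕ} {l : List Bool} :
      s k = true :: l → OExec I c s s' t → OExec I (.ite k e c d) s s' (1 + t)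
  | ite_false {k : ℕ} {e c d : OCmd} {s s' : Store} {t : ℕ} {l : List Bool} :
      s k = false :: l → OExec I d s s' t → OExec I (.ite k e c d) s s' (1 + t)
  | loop_nil {k : ℕ} {c : OCmd} {s : Store} : s k = [] → OExec I (.loop k c) s s 1
  | loop_cons {k : ℕ} {c : OCmd} {s s' s'' : Store} {t t' : ℕ} :
      s k ≠ [] → OExec I c s s' t → OExec I (.loop k c) s' s'' t' →
        OExec I (.loop k c) s s'' (1 + t + t')

theorem length_qry (I : Inst) (b : Bool) (l : List Bool) :
    (I.qry b l).length = 2 * (I.ans b l).size + 1 := by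
  unfold Inst.qry
  rw [core_length_pair, Nat.size_eq_bits_len]
  simp

theorem OExec.length_le {I : Inst} {c : OCmd} {s s' : Store} {t : ℕ} (h : OExec I c s s' t)
    (k : ℕ) : (s' k).length ≤ (s k).length + t := by
  induction h with
  | cmd h => exact h.length_le k
  | query b j s =>
    by_cases hk : k = j
    · subst hk
      rw [update_self, length_qry]
      omega
    · rw [update_of_ne hk]
      omega
  | ground j s =>
    by_cases hk : k = j
    · subst hk
      rw [update_self, List.length_append, List.length_replicate]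
      omega
    · rw [update_of_ne hk]
      omega
  | seq _ _ ih1 ih2 => omega
  | ite_nil _ _ ih => omega
  | ite_true _ _ ih => omega
  | ite_false _ _ ih => omega
  | loop_nil _ => omega
  | loop_cons _ _ _ ih1 ih2 => omega

/-! ### pushing a number on stack `k` -/

/-- push the bits -/
def encNum2K (k : ℕ) : Prog := .loop (.zero 10)
  (.blk ([.quot 2 8 10, .rem 2 2 5] ++ pushB k 2 ++ pushB k 4 ++ [.quot 10 10 5]))

/-- push the code of the number in register `8` -/
def encNumK (k : ℕ) : Prog :=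
  .seq (.blk ([.add 11 8 4, .copy 10 7] ++ pushB k 3)) (.seq encNum1 (encNum2K k))

theorem encNum2K_run {w K H a k : ℕ} (ρ : ℕ → ℕ) (hw : 1 ≤ w) (hH : K * (H + 1) ≤ 2 ^ (w - 1))
    (hK : k < K) (X : List Bool) : ∀ (i : ℕ) (S : Store) (σ : St), i ≤ a.size → Rep w K S σ →
    σ.regs 8 = a → σ.regs 10 = 2 ^ i / 2 →
    S k = (a / 2 ^ i).bits.flatMap (fun b => [true, b]) ++ X → (S k).length + 2 * i ≤ H →
    ∃ σ' t, Ex w ρ (encNum2K k) σ σ' t ∧ t ≤ 1 + 9 * i ∧
      Rep w K (update S k (a.bits.flatMap (fun b => [true, b]) ++ X)) σ' ∧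
      (∀ j, j ≠ 2 → j ≠ 10 → j < 12 → σ'.regs j = σ.regs j) ∧ σ'.drawn = σ.drawn := by
  intro i
  induction i with
  | zero =>
    intro S σ _ hσ h8 h10 h0 _
    refine ⟨σ, 1, Ex.loop_done ?_, by omega, ?_, fun _ _ _ _ => rfl, rfl⟩
    · show σ.regs 10 = 0
      rw [h10]; simp
    · rw [pow_zero, Nat.div_one] at h0
      rw [← h0, update_eq_self]
      exact hσ
  | succ i ih =>
    intro S σ hi hσ h8 h10 h0 hroom
    have hdiv : a / 2 ^ (i + 1) = (a / 2 ^ i).div2 := by
      rw [Nat.div2_val, Nat.div_div_eq_div_mul, pow_succ]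
    have hne : a / 2 ^ i ≠ 0 := by
      have h1 : 2 ^ i ≤ a := Nat.lt_size.1 (by omega)
      have := (Nat.div_pos h1 (by positivity))
      omega
    have hbits : (a / 2 ^ i).bits = (a / 2 ^ i).bodd :: (a / 2 ^ (i + 1)).bits := by
      rw [hdiv]
      have h1 : (a / 2 ^ i).bits ≠ [] := by
        intro h
        have := congrArg List.length h
        rw [Nat.size_eq_bits_len] at this
        exact hne (Nat.size_eq_zero.1 (by simpa using this))
      rw [Nat.div2_bits_eq_tail, Nat.bodd_eq_bits_head]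
      cases h2 : (a / 2 ^ i).bits with
      | nil => exact absurd h2 h1
      | cons x l => rfl
    set σ1 := effs w ρ [.quot 2 8 10, .rem 2 2 5] σ with hσ1
    have h10' : σ.regs 10 = 2 ^ i := by
      rw [h10, pow_succ]; omega
    have r1 : Rep w K S σ1 := by
      simp only [hσ1, effs_cons, effs_nil, Op.eff]
      exact (hσ.scratch _ (by omega)).scratch _ (by omega)
    have a2 : σ1.regs 2 = ((a / 2 ^ i).bodd).toNat := by
      simp only [hσ1, effs_cons, effs_nil, Op.eff, update_self]
      rw [update_of_ne (show (5 : ℕ) ≠ 2 by omega), hσ.two, h8, h10', Nat.mod_two_of_bodd]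
    have aj : ∀ j, j ≠ 2 → σ1.regs j = σ.regs j := by
      intro j hj
      simp [hσ1, Op.eff, hj]
    have r2 := r1.pushB (ρ := ρ) (k := k) hK (adr_lt hw hH hK (by omega)) (r := 2) (by omega) a2
    set σ2 := effs w ρ (pushB k 2) σ1 with hσ2
    have bj : ∀ j, j ≠ 2 → j < 12 → σ2.regs j = σ.regs j := by
      intro j hj hj'
      rw [hσ2, pushB_regs (by omega), aj j hj]
    have room2 : adr w K k ((update S k ((a / 2 ^ i).bodd :: S k) k).length + 1) < 2 ^ w := by
      rw [update_self, List.length_cons]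
      exact adr_lt hw hH hK (by omega)
    have r3 := r2.pushB (ρ := ρ) (k := k) hK room2 (r := 4) (b := true) (by omega) r2.one
    set σ3 := effs w ρ (pushB k 4) σ2 with hσ3
    have cj : ∀ j, j ≠ 2 → j < 12 → σ3.regs j = σ.regs j := by
      intro j hj hj'
      rw [hσ3, pushB_regs (by omega), bj j hj hj']
    set σ4 := effs w ρ [.quot 10 10 5] σ3 with hσ4
    have r4 : Rep w K (update S k (true :: (a / 2 ^ i).bodd :: S k)) σ4 := by
      simp only [hσ4, effs_cons, effs_nil, Op.eff]
      have := r3.scratch (d := 10) (σ3.regs 10 / σ3.regs 5) (by omega)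
      rw [update_idem, update_self] at this
      exact this
    have d10 : σ4.regs 10 = 2 ^ i / 2 := by
      simp only [hσ4, effs_cons, effs_nil, Op.eff, update_self]
      rw [cj 10 (by omega) (by omega), h10', r3.two]
    have dj : ∀ j, j ≠ 2 → j ≠ 10 → j < 12 → σ4.regs j = σ.regs j := by
      intro j hj hj' hj''
      have : σ4.regs j = σ3.regs j := by simp [hσ4, Op.eff, hj']
      rw [this, cj j hj hj'']
    obtain ⟨σ', t, e, ht, r, fj, fd⟩ := ih (update S k (true :: (a / 2 ^ i).bodd :: S k)) σ4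
      (by omega) r4 (by rw [dj 8 (by omega) (by omega) (by omega), h8]) d10 (by
        rw [update_self, h0, hbits]
        simp) (by
        rw [update_self, List.length_cons, List.length_cons]
        omega)
    have heff : effs w ρ ([.quot 2 8 10, .rem 2 2 5] ++ pushB k 2 ++ pushB k 4 ++ [.quot 10 10 5]) σ
        = σ4 := by
      rw [effs_append, effs_append, effs_append]
    have hbody : Ex w ρ (.blk ([.quot 2 8 10, .rem 2 2 5] ++ pushB k 2 ++ pushB k 4 ++
        [.quot 10 10 5])) σ σ4 7 := by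
      conv => arg 5; rw [← heff]
      exact Ex.blk _ _
    refine ⟨σ', _, Ex.loop_step ?_ hbody e, by omega, ?_, ?_, ?_⟩
    · show ¬ σ.regs 10 = 0
      rw [h10']
      positivity
    · rw [update_idem] at r
      exact r
    · intro j h1 h2 h3
      rw [fj j h1 h2 h3, dj j h1 h2 h3]
    · rw [fd]
      rfl

theorem encNumK_run {w K H a k : ℕ} (ρ : ℕ → ℕ) (hw : 1 ≤ w) (hH : K * (H + 1) ≤ 2 ^ (w - 1))
    (hK : k < K) (ha : a + 1 < 2 ^ w) (X : List Bool) (S : Store) (σ : St) (hσ : Rep w K S σ)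
    (h8 : σ.regs 8 = a) (hX : S k = X) (hroom : X.length + 1 + 2 * a.size ≤ H) :
    ∃ σ' t, Ex w ρ (encNumK k) σ σ' t ∧ t ≤ 6 + 12 * w ∧
      Rep w K (update S k (pair a.bits X)) σ' ∧ σ'.drawn = σ.drawn := by
  have hsz : a.size ≤ w := Nat.size_le.2 (by omega)
  set σ1 := effs w ρ [.add 11 8 4, .copy 10 7] σ with hσ1
  have r1 : Rep w K S σ1 := by
    simp only [hσ1, effs_cons, effs_nil, Op.eff]
    exact (hσ.scratch _ (by omega)).scratch _ (by omega)
  have a11 : σ1.regs 11 = a + 1 := by
    simp only [hσ1, effs_cons, effs_nil, Op.eff]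
    rw [update_of_ne (show (11 : ℕ) ≠ 10 by omega), update_self, h8, hσ.one, Nat.mod_eq_of_lt ha]
  have a10 : σ1.regs 10 = 2 ^ (w - 1) := by
    simp only [hσ1, effs_cons, effs_nil, Op.eff, update_self]
    rw [update_of_ne (show (7 : ℕ) ≠ 11 by omega), hσ.base]
  have aj : ∀ j, j < 10 → σ1.regs j = σ.regs j := by
    intro j hj
    simp only [hσ1, effs_cons, effs_nil, Op.eff]
    rw [update_of_ne (by omega), update_of_ne (by omega)]
  have room : adr w K k ((S k).length + 1) < 2 ^ w := adr_lt hw hH hK (by rw [hX]; omega)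
  have r2 := r1.pushB (ρ := ρ) (k := k) hK room (r := 3) (b := false) (by omega) r1.zero
  set σ2 := effs w ρ (pushB k 3) σ1 with hσ2
  have bj : ∀ j, j < 12 → σ2.regs j = σ1.regs j := by
    intro j hj
    rw [hσ2, pushB_regs (by omega)]
  obtain ⟨t3, e3, b3⟩ := encNum1_run (w := w) (a := a) ρ (w - a.size) σ2 (by
      rw [bj 10 (by omega), a10, show a.size + (w - a.size) = w by omega]
      obtain ⟨v, rfl⟩ := Nat.exists_eq_add_of_le hw
      rw [Nat.add_sub_cancel_left, pow_add]
      omega) r2.two (by rw [bj 11 (by omega), a11])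
  set σ3 : St := { σ2 with regs := update σ2.regs 10 (2 ^ a.size / 2) } with hσ3
  have r3 : Rep w K (update S k (false :: S k)) σ3 := r2.scratch _ (by omega)
  have cj : ∀ j, j < 10 → σ3.regs j = σ.regs j := by
    intro j hj
    show update σ2.regs 10 _ j = _
    rw [update_of_ne (by omega), bj j (by omega), aj j hj]
  have c10 : σ3.regs 10 = 2 ^ a.size / 2 := by
    simp [hσ3]
  obtain ⟨σ', t4, e4, b4, r4, fj, fd⟩ := encNum2K_run (a := a) ρ hw hH hK (false :: X) a.size
    (update S k (false :: S k)) σ3 le_rfl r3 (by rw [cj 8 (by omega), h8]) c10 (by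
      rw [update_self, Nat.div_eq_of_lt (Nat.lt_size_self a), hX]
      simp) (by
      rw [update_self, List.length_cons, hX]
      omega)
  have heff : effs w ρ ([.add 11 8 4, .copy 10 7] ++ pushB k 3) σ = σ2 := by
    rw [effs_append]
  have hb : Ex w ρ (.blk ([.add 11 8 4, .copy 10 7] ++ pushB k 3)) σ σ2 4 := by
    conv => arg 5; rw [← heff]
    exact Ex.blk _ _
  refine ⟨σ', _, Ex.seq hb (Ex.seq e3 e4), ?_, ?_, ?_⟩
  · omega
  · rw [update_idem] at r4
    exact r4
  · rw [fd]
    rfl

/-! ### the query -/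

/-- write stack `k` to the cells `0, 1, ...` -/
def readK (k : ℕ) : Prog := .seq (.blk [.const 9 0, .load 2 (12 + k)])
  (.loop (.eq 2 5) (.blk ([.store 2 9, .add 9 9 4] ++ popB k ++ [.load 2 (12 + k)])))

/-- write zeros to the cells up to the content of register `r` -/
def fillN (r : ℕ) : Prog := .seq (.blk [.add 10 9 4])
  (.loop (.lt r 10) (.blk [.store 3 9, .copy 9 10, .add 10 10 4]))

theorem readK_loop {w K H k : ℕ} (ρ : ℕ → ℕ) (hw : 1 ≤ w)
    (hlow : H < 2 ^ (w - 1)) (hK : k < K) :
    ∀ (l : List Bool) (i : ℕ) (S : Store) (σ : St), S k = l → i + l.length ≤ H → Rep w K S σ →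
      σ.regs 9 = i →
      ∃ σ' t, Ex w ρ (.loop (.eq 2 5) (.blk ([.store 2 9, .add 9 9 4] ++ popB k ++
          [.load 2 (12 + k)]))) (ld k σ) σ' t ∧ t ≤ 1 + 6 * l.length ∧
        Rep w K (update S k []) σ' ∧ σ'.regs 9 = i + l.length ∧
        (∀ a, a < i → σ'.mem a = σ.mem a) ∧
        (∀ j (hj : j < l.length), σ'.mem (i + j) = (l[j]).toNat) ∧ σ'.drawn = σ.drawn := by
  intro l
  induction l with
  | nil =>
    intro i S σ h0 hi hσ h9
    refine ⟨ld k σ, 1, Ex.loop_done ((hσ.ld_eval5 hK).2 h0), by omega, ?_, ?_, ?_, ?_, rfl⟩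
    · rw [← h0, update_eq_self]
      exact hσ.ld k
    · rw [ld_regs (by omega), h9]
      simp
    · intro a _
      rfl
    · intro j hj
      simp at hj
  | cons b l ih =>
    intro i S σ h0 hi hσ h9
    rw [List.length_cons] at hi
    have hB := two_pow_half hw
    have r0 := hσ.ld k
    have b2 : (ld k σ).regs 2 = b.toNat := by
      rw [hσ.ld_reg hK, h0]
      rfl
    have b9 : (ld k σ).regs 9 = i := by rw [ld_regs (by omega), h9]
    set σ1 := effs w ρ [.store 2 9, .add 9 9 4] (ld k σ) with hσ1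
    have e1 : σ1 = { regs := update (ld k σ).regs 9 (i + 1), mem := update σ.mem i b.toNat,
                     drawn := σ.drawn } := by
      simp only [hσ1, effs_cons, effs_nil, Op.eff]
      rw [b2, b9, r0.one, Nat.mod_eq_of_lt (show i + 1 < 2 ^ w by omega)]
      rfl
    have r1 : Rep w K S σ1 := by
      rw [e1]
      refine (r0.scratch (d := 9) (i + 1) (by omega)).congr rfl rfl rfl rfl rfl (fun _ _ => rfl) ?_
      intro a ha
      show update σ.mem i b.toNat a = (ld k σ).mem a
      rw [update_of_ne (by omega)]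
      rfl
    have r2 := r1.popB (ρ := ρ) hK h0
    set σ2 := effs w ρ (popB k) σ1 with hσ2
    have c9 : σ2.regs 9 = i + 1 := by
      rw [hσ2, popB_regs (by omega), e1]
      simp
    obtain ⟨σ', t, e, ht, r, c9', cm, cl, cd⟩ := ih (i + 1) (update S k l) σ2 (by rw [update_self])
      (by omega) r2 c9
    have heff : effs w ρ ([.store 2 9, .add 9 9 4] ++ popB k ++ [.load 2 (12 + k)]) (ld k σ) =
        ld k σ2 := by
      rw [effs_append, effs_append]
      rfl
    have hbody : Ex w ρ (.blk ([.store 2 9, .add 9 9 4] ++ popB k ++ [.load 2 (12 + k)])) (ld k σ)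
        (ld k σ2) 4 := by
      rw [← heff]
      exact Ex.blk _ _
    have m2 : ∀ a, σ2.mem a = update σ.mem i b.toNat a := by
      intro a
      rw [hσ2, popB_mem, e1]
    refine ⟨σ', _, Ex.loop_step ?_ hbody e, ?_, ?_, ?_, ?_, ?_, ?_⟩
    · intro h'
      have := (hσ.ld_eval5 hK).1 h'
      rw [h0] at this
      simp at this
    · rw [List.length_cons]
      omega
    · rw [update_idem] at r
      exact r
    · rw [c9', List.length_cons]
      omega
    · intro a ha
      rw [cm a (by omega), m2, update_of_ne (by omega)]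
    · intro j hj
      cases j with
      | zero =>
        rw [cm (i + 0) (by omega), m2, add_zero, update_self]
        rfl
      | succ j =>
        have := cl j (by simpa using hj)
        rw [show i + (j + 1) = i + 1 + j by omega, this]
        rfl
    · rw [cd, hσ2, popB_drawn, e1]

theorem readK_run {w K H k : ℕ} (ρ : ℕ → ℕ) (hw : 1 ≤ w)
    (hlow : H < 2 ^ (w - 1)) (hK : k < K) (l : List Bool) (S : Store) (σ : St) (h0 : S k = l)
    (hl : l.length ≤ H) (hσ : Rep w K S σ) :
    ∃ σ' t, Ex w ρ (readK k) σ σ' t ∧ t ≤ 3 + 6 * l.length ∧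
      Rep w K (update S k []) σ' ∧ σ'.regs 9 = l.length ∧
      (∀ j (hj : j < l.length), σ'.mem j = (l[j]).toNat) ∧ σ'.drawn = σ.drawn := by
  set σ1 := effs w ρ [.const 9 0] σ with hσ1
  have r1 : Rep w K S σ1 := by
    simp only [hσ1, effs_cons, effs_nil, Op.eff]
    exact hσ.scratch _ (by omega)
  have h9 : σ1.regs 9 = 0 := by
    simp [hσ1, Op.eff]
  obtain ⟨σ', t, e, ht, r, c9, _, cl, cd⟩ := readK_loop ρ hw hlow hK l 0 S σ1 h0 (by omega) r1 h9
  refine ⟨σ', 2 + t, Ex.seq (Ex.blk _ σ) e, by omega, r, by rw [c9]; omega, ?_, cd⟩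
  intro j hj
  have := cl j hj
  rw [zero_add] at this
  exact this

theorem fillN_loop {w K r n : ℕ} (ρ : ℕ → ℕ) (hw : 1 ≤ w)
    (hlow : n < 2 ^ (w - 1)) (hr : 12 + K ≤ r) : ∀ (m i : ℕ) (S : Store) (σ : St), n ≤ i + m →
      i < 2 ^ (w - 1) →
      Rep w K S σ → σ.regs 9 = i → σ.regs 10 = i + 1 → σ.regs r = n →
      ∃ σ' t, Ex w ρ (.loop (.lt r 10) (.blk [.store 3 9, .copy 9 10, .add 10 10 4])) σ σ' t ∧
        t ≤ 1 + 5 * m ∧ Rep w K S σ' ∧ (∀ a, a < i → σ'.mem a = σ.mem a) ∧
        (∀ a, i ≤ a → a < n → σ'.mem a = 0) ∧ σ'.regs r = n ∧ σ'.drawn = σ.drawn := by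
  intro m
  induction m with
  | zero =>
    intro i S σ hn hi hσ h9 h10 hrn
    refine ⟨σ, 1, Ex.loop_done ?_, by omega, hσ, fun _ _ => rfl, ?_, hrn, rfl⟩
    · show σ.regs r < σ.regs 10
      omega
    · intro a _ _
      omega
  | succ m ih =>
    intro i S σ hn hi hσ h9 h10 hrn
    by_cases hin : n ≤ i
    · refine ⟨σ, 1, Ex.loop_done ?_, by omega, hσ, fun _ _ => rfl, ?_, hrn, rfl⟩
      · show σ.regs r < σ.regs 10
        omega
      · intro a _ _
        omega
    · have hB := two_pow_half hw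
      set σ1 := effs w ρ [.store 3 9, .copy 9 10, .add 10 10 4] σ with hσ1
      have e1 : σ1 = { regs := update (update σ.regs 9 (i + 1)) 10 (i + 1 + 1),
                       mem := update σ.mem i 0, drawn := σ.drawn } := by
        simp only [hσ1, effs_cons, effs_nil, Op.eff]
        rw [hσ.zero, h9, h10, update_of_ne (show (10 : ℕ) ≠ 9 by omega), h10,
          update_of_ne (show (4 : ℕ) ≠ 9 by omega), hσ.one,
          Nat.mod_eq_of_lt (show i + 1 + 1 < 2 ^ w by omega)]
      have r1 : Rep w K S σ1 := by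
        rw [e1]
        refine ((hσ.scratch (d := 9) (i + 1) (by omega)).scratch (d := 10) (i + 1 + 1)
          (by omega)).congr rfl rfl rfl rfl rfl (fun _ _ => rfl) ?_
        intro a ha
        show update σ.mem i 0 a = σ.mem a
        rw [update_of_ne (by omega)]
      obtain ⟨σ', t, e, ht, rr, cm, cz, cr, cd⟩ := ih (i + 1) S σ1 (by omega) (by omega) r1
        (by rw [e1]; simp) (by rw [e1]; simp) (by
          rw [e1]
          show update (update σ.regs 9 _) 10 _ r = n
          rw [update_of_ne (by omega), update_of_ne (by omega), hrn])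
      refine ⟨σ', _, Ex.loop_step ?_ (Ex.blk _ _) e, ?_, rr, ?_, ?_, cr, ?_⟩
      · show ¬ σ.regs r < σ.regs 10
        omega
      · simp only [List.length_cons, List.length_nil]
        omega
      · intro a ha
        rw [cm a (by omega), e1]
        show update σ.mem i 0 a = σ.mem a
        rw [update_of_ne (by omega)]
      · intro a ha1 ha2
        by_cases hai : a = i
        · subst hai
          rw [cm a (by omega), e1]
          show update σ.mem a 0 a = 0
          rw [update_self]
        · exact cz a (by omega) ha2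
      · rw [cd, e1]

theorem fillN_run {w K r n i : ℕ} (ρ : ℕ → ℕ) (hw : 1 ≤ w)
    (hlow : n < 2 ^ (w - 1)) (hi : i < 2 ^ (w - 1)) (hr : 12 + K ≤ r) (S : Store) (σ : St)
    (hσ : Rep w K S σ) (h9 : σ.regs 9 = i) (hrn : σ.regs r = n) :
    ∃ σ' t, Ex w ρ (fillN r) σ σ' t ∧ t ≤ 2 + 5 * n ∧ Rep w K S σ' ∧
      (∀ a, a < i → σ'.mem a = σ.mem a) ∧
      (∀ a, i ≤ a → a < n → σ'.mem a = 0) ∧ σ'.regs r = n ∧ σ'.drawn = σ.drawn := by
  have hB := two_pow_half hw
  set σ1 := effs w ρ [.add 10 9 4] σ with hσ1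
  have r1 : Rep w K S σ1 := by
    simp only [hσ1, effs_cons, effs_nil, Op.eff]
    exact hσ.scratch _ (by omega)
  have a9 : σ1.regs 9 = i := by
    simp only [hσ1, effs_cons, effs_nil, Op.eff]
    rw [update_of_ne (by omega), h9]
  have a10 : σ1.regs 10 = i + 1 := by
    simp only [hσ1, effs_cons, effs_nil, Op.eff, update_self]
    rw [h9, hσ.one, Nat.mod_eq_of_lt (by omega)]
  have ar : σ1.regs r = n := by
    simp only [hσ1, effs_cons, effs_nil, Op.eff]
    rw [update_of_ne (by omega), hrn]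
  obtain ⟨σ', t, e, ht, rr, cm, cz, cr, cd⟩ := fillN_loop ρ hw hlow hr n i S σ1 (by omega) hi r1 a9
    a10 ar
  exact ⟨σ', _, Ex.seq (Ex.blk _ _) e, by simp only [List.length_cons, List.length_nil]; omega,
    rr, cm, cz, cr, cd⟩

/-- the whole query -/
def trq (r : ℕ) (b : Bool) (k : ℕ) : OProg :=
  .seq (.base (.seq (readK k) (fillN r))) (.seq (.query b 3 8) (.base (encNumK k)))

theorem trq_run {w K H k : ℕ} (ρ : ℕ → ℕ) (hw : 1 ≤ w) (hH : K * (H + 1) ≤ 2 ^ (w - 1))
    (hK : k < K) (I : Inst) (b : Bool) (S : Store) (σ : St)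
    (hσ : Rep w K S σ) (hN : σ.regs (12 + K) = I.n) (hlen : (S k).length ≤ H) (hn : I.n ≤ H)
    (ha : I.ans b (S k) + 1 < 2 ^ w) (hroom : 2 * (I.ans b (S k)).size + 1 ≤ H) :
    ∃ σ' t, OEx I.O w ρ (trq (12 + K) b k) σ σ' t ∧
      t ≤ 12 + 12 * w + 6 * (S k).length + 5 * I.n ∧
      Rep w K (update S k (I.qry b (S k))) σ' ∧ σ'.regs (12 + K) = I.n ∧ σ'.drawn = σ.drawn := by
  have hlow : H < 2 ^ (w - 1) := by
    have h1 : 1 * (H + 1) ≤ K * (H + 1) := Nat.mul_le_mul_right _ (by omega)
    omega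
  obtain ⟨σ1, t1, e1, b1, r1, c9, cl, cd1⟩ := readK_run ρ hw hlow hK (S k) S σ rfl hlen hσ
  have ok1 : (readK k).ok (12 + K) := by
    refine ⟨?_, ⟨by omega, by omega⟩, ?_⟩
    · intro i hi
      simp only [List.mem_cons, List.not_mem_nil, or_false] at hi
      rcases hi with rfl | rfl <;> simp only [Op.ok] <;> omega
    · intro i hi
      simp only [popB, List.mem_append, List.mem_cons, List.not_mem_nil, or_false] at hi
      rcases hi with ((rfl | rfl) | rfl) | rfl <;> simp only [Op.ok] <;> omega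
  have hN1 : σ1.regs (12 + K) = I.n := by
    rw [Ex.frame e1 ok1 (le_refl _), hN]
  obtain ⟨σ2, t2, e2, b2, r2, cm, cz, cr, cd2⟩ := fillN_run (K := K) (r := 12 + K) ρ hw
    (show I.n < 2 ^ (w - 1) by omega) (show (S k).length < 2 ^ (w - 1) by omega) (le_refl _)
    (update S k []) σ1 r1 c9 hN1
  have hset : qset I.n σ2.mem (σ2.regs 3) = lset I.n (S k) := by
    unfold qset lset
    apply Finset.filter_congr
    intro j _
    rw [r2.zero, zero_add]
    by_cases hj : (j : ℕ) < (S k).length
    · rw [cm _ hj, cl _ hj, List.getElem?_eq_getElem hj]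
      cases (S k)[(j : ℕ)] <;> simp
    · rw [cz _ (by omega) j.2, List.getElem?_eq_none (by omega)]
      simp
  set σ3 := qeff I.O w b 3 8 σ2 with hσ3
  have e3 : σ3 = { σ2 with regs := update σ2.regs 8 (I.ans b (S k)) } := by
    rw [hσ3]
    unfold qeff
    rw [hset, Nat.mod_eq_of_lt (show I.O b (lset I.n (S k)) < 2 ^ w from by
      have : I.ans b (S k) + 1 < 2 ^ w := ha
      unfold Inst.ans at this
      omega)]
    rfl
  have r3 : Rep w K (update S k []) σ3 := by
    rw [e3]
    exact r2.scratch _ (by omega)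
  obtain ⟨σ4, t4, e4, b4, r4, cd4⟩ := encNumK_run (a := I.ans b (S k)) ρ hw hH hK ha []
    (update S k []) σ3 r3 (by rw [e3]; simp) (by rw [update_self]) (by
      simp only [List.length_nil]
      omega)
  have ok4 : (encNumK k).ok (12 + K) := by
    refine ⟨?_, ⟨⟨by omega, by omega⟩, ?_⟩, ?_, ?_⟩
    · intro i hi
      simp only [pushB, List.mem_append, List.mem_cons, List.not_mem_nil, or_false] at hi
      rcases hi with (rfl | rfl) | rfl | rfl <;> simp only [Op.ok] <;> omega
    · intro i hi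
      simp only [List.mem_cons, List.not_mem_nil, or_false] at hi
      subst hi
      simp only [Op.ok]; omega
    · simp only [Cond.ok]; omega
    · intro i hi
      simp only [pushB, List.mem_append, List.mem_cons, List.not_mem_nil, or_false] at hi
      rcases hi with (((rfl | rfl) | rfl | rfl) | rfl | rfl) | rfl <;> simp only [Op.ok] <;> omega
  refine ⟨σ4, _, OEx.seq (OEx.base (Ex.seq e1 e2)) (OEx.seq (OEx.query b 3 8 σ2) (OEx.base e4)),
    by omega, ?_, ?_, ?_⟩
  · rw [update_idem] at r4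
    exact r4
  · rw [Ex.frame e4 ok4 (le_refl _), e3]
    show update σ2.regs 8 _ (12 + K) = I.n
    rw [update_of_ne (by omega), cr]
  · rw [cd4, e3]
    show σ2.drawn = σ.drawn
    rw [cd2, cd1]

/-! ### pushing `n` in unary -/

/-- push as many `true`s as register `r` says -/
def pushN (r k : ℕ) : Prog :=
  .seq (.blk [.copy 9 r]) (.loop (.zero 9) (.blk (pushB k 4 ++ [.sub 9 9 4])))

theorem pushN_loop {w K H k : ℕ} (ρ : ℕ → ℕ) (hw : 1 ≤ w) (hH : K * (H + 1) ≤ 2 ^ (w - 1))
    (hK : k < K) : ∀ (m : ℕ) (S : Store) (σ : St), (S k).length + m ≤ H → Rep w K S σ →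
      σ.regs 9 = m →
      ∃ σ' t, Ex w ρ (.loop (.zero 9) (.blk (pushB k 4 ++ [.sub 9 9 4]))) σ σ' t ∧
        t ≤ 1 + 5 * m ∧ Rep w K (update S k (List.replicate m true ++ S k)) σ' ∧
        σ'.drawn = σ.drawn := by
  intro m
  induction m with
  | zero =>
    intro S σ _ hσ h9
    refine ⟨σ, 1, Ex.loop_done h9, by omega, ?_, rfl⟩
    simpa using hσ
  | succ m ih =>
    intro S σ hlen hσ h9
    have r1 := hσ.pushB (ρ := ρ) (k := k) hK (adr_lt hw hH hK (by omega)) (r := 4) (b := true)
      (by omega) hσ.one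
    set σ1 := effs w ρ (pushB k 4) σ with hσ1
    set σ2 := effs w ρ [.sub 9 9 4] σ1 with hσ2
    have r2 : Rep w K (update S k (true :: S k)) σ2 := by
      simp only [hσ2, effs_cons, effs_nil, Op.eff]
      exact r1.scratch _ (by omega)
    have a9 : σ2.regs 9 = m := by
      simp only [hσ2, effs_cons, effs_nil, Op.eff, update_self]
      rw [r1.one, hσ1, pushB_regs (by omega), h9]
      omega
    obtain ⟨σ', t, e, ht, r, d⟩ := ih (update S k (true :: S k)) σ2 (by
      rw [update_self, List.length_cons]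
      omega) r2 a9
    have heff : effs w ρ (pushB k 4 ++ [.sub 9 9 4]) σ = σ2 := by rw [effs_append]
    have hbody : Ex w ρ (.blk (pushB k 4 ++ [.sub 9 9 4])) σ σ2 3 := by
      conv => arg 5; rw [← heff]
      exact Ex.blk _ _
    refine ⟨σ', _, Ex.loop_step ?_ hbody e, by omega, ?_, ?_⟩
    · show ¬ σ.regs 9 = 0
      omega
    · rw [update_idem, update_self] at r
      rw [List.replicate_succ', List.append_assoc]
      exact r
    · rw [d]
      rfl

theorem pushN_run {w K H k n : ℕ} (ρ : ℕ → ℕ) (hw : 1 ≤ w) (hH : K * (H + 1) ≤ 2 ^ (w - 1))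
    (hK : k < K) (S : Store) (σ : St) (hlen : (S k).length + n ≤ H) (hσ : Rep w K S σ)
    (hN : σ.regs (12 + K) = n) :
    ∃ σ' t, Ex w ρ (pushN (12 + K) k) σ σ' t ∧ t ≤ 2 + 5 * n ∧
      Rep w K (update S k (List.replicate n true ++ S k)) σ' ∧ σ'.regs (12 + K) = n ∧
      σ'.drawn = σ.drawn := by
  set σ1 := effs w ρ [.copy 9 (12 + K)] σ with hσ1
  have r1 : Rep w K S σ1 := by
    simp only [hσ1, effs_cons, effs_nil, Op.eff]
    exact hσ.scratch _ (by omega)
  have a9 : σ1.regs 9 = n := by
    simp only [hσ1, effs_cons, effs_nil, Op.eff, update_self]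
    exact hN
  have aN : σ1.regs (12 + K) = n := by
    simp only [hσ1, effs_cons, effs_nil, Op.eff]
    rw [update_of_ne (by omega), hN]
  obtain ⟨σ', t, e, ht, r, d⟩ := pushN_loop ρ hw hH hK n S σ1 hlen r1 a9
  have ok : (Prog.loop (.zero 9) (.blk (pushB k 4 ++ [.sub 9 9 4]))).ok (12 + K) := by
    refine ⟨?_, ?_⟩
    · simp only [Cond.ok]; omega
    · intro i hi
      simp only [pushB, List.mem_append, List.mem_cons, List.not_mem_nil, or_false] at hi
      rcases hi with (rfl | rfl) | rfl <;> simp only [Op.ok] <;> omega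
  refine ⟨σ', _, Ex.seq (Ex.blk _ _) e, ?_, r, ?_, ?_⟩
  · simp only [List.length_cons, List.length_nil]
    omega
  · rw [Ex.frame e ok (le_refl _), aN]
  · rw [d]
    rfl

/-- translation of stack programs with queries; register `12 + K` holds `n` -/
def otr (K : ℕ) : OCmd → OProg
  | .cmd c => .base (tr c)
  | .query b k => trq (12 + K) b k
  | .ground k => .base (pushN (12 + K) k)
  | .seq c d => .seq (otr K c) (otr K d)
  | .ite k e c d => .seq (.base (.blk [.load 2 (12 + k)]))
      (.ite (.eq 2 5) (otr K e) (.ite (.eq 2 4) (otr K c) (otr K d)))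
  | .loop k c => .seq (.base (.blk [.load 2 (12 + k)]))
      (.loop (.eq 2 5) (.seq (otr K c) (.base (.blk [.load 2 (12 + k)]))))

theorem ok_ld {N k : ℕ} (h : k < N) : (Prog.blk [.load 2 (12 + k)]).ok (13 + N) := by
  intro i hi
  simp only [List.mem_cons, List.not_mem_nil, or_false] at hi
  subst hi
  exact ⟨by omega, by omega⟩

theorem otr_ok {N : ℕ} {c : OCmd} (h : c.maxVar < N) : (otr N c).ok (13 + N) := by
  induction c with
  | cmd c => exact Prog.ok_mono (tr_ok h) (by omega)
  | query b k =>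
    have hk : k < N := h
    refine ⟨⟨⟨?_, ⟨by omega, by omega⟩, ?_⟩, ?_, ⟨by omega, by omega⟩, ?_⟩, ⟨by omega, by omega⟩,
      ?_, ⟨⟨by omega, by omega⟩, ?_⟩, ?_, ?_⟩
    · intro i hi
      simp only [List.mem_cons, List.not_mem_nil, or_false] at hi
      rcases hi with rfl | rfl <;> simp only [Op.ok] <;> omega
    · intro i hi
      simp only [popB, List.mem_append, List.mem_cons, List.not_mem_nil, or_false] at hi
      rcases hi with ((rfl | rfl) | rfl) | rfl <;> simp only [Op.ok] <;> omega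
    · intro i hi
      simp only [List.mem_cons, List.not_mem_nil, or_false] at hi
      subst hi
      simp only [Op.ok]; omega
    · intro i hi
      simp only [List.mem_cons, List.not_mem_nil, or_false] at hi
      rcases hi with rfl | rfl | rfl <;> simp only [Op.ok] <;> omega
    · intro i hi
      simp only [pushB, List.mem_append, List.mem_cons, List.not_mem_nil, or_false] at hi
      rcases hi with (rfl | rfl) | rfl | rfl <;> simp only [Op.ok] <;> omega
    · intro i hi
      simp only [List.mem_cons, List.not_mem_nil, or_false] at hi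
      subst hi
      simp only [Op.ok]; omega
    · simp only [Cond.ok]; omega
    · intro i hi
      simp only [pushB, List.mem_append, List.mem_cons, List.not_mem_nil, or_false] at hi
      rcases hi with (((rfl | rfl) | rfl | rfl) | rfl | rfl) | rfl <;> simp only [Op.ok] <;> omega
  | ground k =>
    have hk : k < N := h
    refine ⟨?_, ?_, ?_⟩
    · intro i hi
      simp only [List.mem_cons, List.not_mem_nil, or_false] at hi
      subst hi
      simp only [Op.ok]; omega
    · simp only [Cond.ok]; omega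
    · intro i hi
      simp only [pushB, List.mem_append, List.mem_cons, List.not_mem_nil, or_false] at hi
      rcases hi with (rfl | rfl) | rfl <;> simp only [Op.ok] <;> omega
  | seq c d ihc ihd =>
    simp only [OCmd.maxVar, max_lt_iff] at h
    exact ⟨ihc h.1, ihd h.2⟩
  | ite k e c d ihe ihc ihd =>
    simp only [OCmd.maxVar, max_lt_iff] at h
    exact ⟨ok_ld h.1, ⟨by omega, by omega⟩, ihe h.2.1, ⟨by omega, by omega⟩, ihc h.2.2.1,
      ihd h.2.2.2⟩
  | loop k c ih =>
    simp only [OCmd.maxVar, max_lt_iff] at h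
    exact ⟨ok_ld h.1, ⟨by omega, by omega⟩, ih h.2, ok_ld h.1⟩

/-- the simulation -/
theorem oexec_tr {w K H : ℕ} (ρ : ℕ → ℕ) (hw : 1 ≤ w) (hH : K * (H + 1) ≤ 2 ^ (w - 1))
    (I : Inst) (hI : ∀ b A, I.O b A + 1 < 2 ^ w)
    {c : OCmd} {s s' : Store} {t : ℕ} (h : OExec I c s s' t) :
    c.maxVar < K → (∀ k, (s k).length + t ≤ H) → ∀ σ, Rep w K s σ → σ.regs (12 + K) = I.n →
      ∃ σ' t', OEx I.O w ρ (otr K c) σ σ' t' ∧ t' ≤ (12 + 12 * w) * t ∧ Rep w K s' σ' ∧
        σ'.regs (12 + K) = I.n ∧ σ'.drawn = σ.drawn := by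
  have hwt : ∀ t : ℕ, 0 ≤ 12 * w * t := fun t => Nat.zero_le _
  induction h with
  | @cmd c s s' t h =>
    intro hk hl σ hσ hN
    obtain ⟨σ', t', e, b, r, d⟩ := exec_tr ρ hw hH h hk hl σ hσ
    refine ⟨σ', t', OEx.base e, ?_, r, ?_, d⟩
    · have : 5 * t ≤ (12 + 12 * w) * t := Nat.mul_le_mul_right _ (by omega)
      omega
    · rw [Ex.frame e (tr_ok hk) (le_refl _), hN]
  | query b k s =>
    intro hk hl σ hσ hN
    have hk' : k < K := hk
    have hlk := hl k
    obtain ⟨σ', t', e, bd, r, nn, d⟩ := trq_run ρ hw hH hk' I b s σ hσ hN (by omega) (by omega)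
      (hI _ _) (by omega)
    refine ⟨σ', t', e, ?_, r, nn, d⟩
    have h1 : (12 + 12 * w) * ((s k).length + I.n + 2 * (I.ans b (s k)).size + 2) =
        (12 + 12 * w) + (12 + 12 * w) * ((s k).length + I.n + 2 * (I.ans b (s k)).size + 1) := by
      ring
    have h2 : 12 * ((s k).length + I.n + 2 * (I.ans b (s k)).size + 1) ≤
        (12 + 12 * w) * ((s k).length + I.n + 2 * (I.ans b (s k)).size + 1) :=
      Nat.mul_le_mul_right _ (by omega)
    omega
  | ground k s =>
    intro hk hl σ hσ hN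
    have hk' : k < K := hk
    obtain ⟨σ', t', e, bd, r, nn, d⟩ := pushN_run ρ hw hH hk' s σ (by
      have := hl k
      omega) hσ hN
    refine ⟨σ', t', OEx.base e, ?_, r, nn, d⟩
    have h1 : 12 * (I.n + 1) ≤ (12 + 12 * w) * (I.n + 1) := Nat.mul_le_mul_right _ (by omega)
    omega
  | @seq c d s s' s'' t t' h1 h2 ih1 ih2 =>
    intro hk hl σ hσ hN
    simp only [OCmd.maxVar, max_lt_iff] at hk
    obtain ⟨σ1, t1, e1, b1, r1, n1, d1⟩ := ih1 hk.1 (fun j => by have := hl j; omega) σ hσ hN
    obtain ⟨σ2, t2, e2, b2, r2, n2, d2⟩ := ih2 hk.2 (fun j => by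
      have := hl j
      have := h1.length_le j
      omega) σ1 r1 n1
    refine ⟨σ2, t1 + t2, OEx.seq e1 e2, ?_, r2, n2, d2.trans d1⟩
    rw [Nat.mul_add]
    omega
  | @ite_nil k e c d s s' t hnil _ ih =>
    intro hk hl σ hσ hN
    simp only [OCmd.maxVar, max_lt_iff] at hk
    obtain ⟨σ1, t1, e1, b1, r1, n1, d1⟩ := ih hk.2.1 (fun j => by have := hl j; omega) (ld k σ)
      (hσ.ld k) (by rw [ld_regs (by omega), hN])
    refine ⟨σ1, _, OEx.seq (OEx.base (Ex.blk _ σ))
      (OEx.ite_true ((hσ.ld_eval5 hk.1).2 hnil) e1), ?_, r1, n1, d1⟩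
    simp only [List.length_cons, List.length_nil, Nat.mul_add]
    omega
  | @ite_true k e c d s s' t l hcons _ ih =>
    intro hk hl σ hσ hN
    simp only [OCmd.maxVar, max_lt_iff] at hk
    obtain ⟨σ1, t1, e1, b1, r1, n1, d1⟩ := ih hk.2.2.1 (fun j => by have := hl j; omega) (ld k σ)
      (hσ.ld k) (by rw [ld_regs (by omega), hN])
    refine ⟨σ1, _, OEx.seq (OEx.base (Ex.blk _ σ))
      (OEx.ite_false ?_ (OEx.ite_true ?_ e1)), ?_, r1, n1, d1⟩
    · exact fun h' => by
        have := (hσ.ld_eval5 hk.1).1 h'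
        rw [hcons] at this
        simp at this
    · exact (hσ.ld_eval4 hk.1).2 (by rw [hcons]; rfl)
    · simp only [List.length_cons, List.length_nil, Nat.mul_add]
      omega
  | @ite_false k e c d s s' t l hcons _ ih =>
    intro hk hl σ hσ hN
    simp only [OCmd.maxVar, max_lt_iff] at hk
    obtain ⟨σ1, t1, e1, b1, r1, n1, d1⟩ := ih hk.2.2.2 (fun j => by have := hl j; omega) (ld k σ)
      (hσ.ld k) (by rw [ld_regs (by omega), hN])
    refine ⟨σ1, _, OEx.seq (OEx.base (Ex.blk _ σ))
      (OEx.ite_false ?_ (OEx.ite_false ?_ e1)), ?_, r1, n1, d1⟩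
    · exact fun h' => by
        have := (hσ.ld_eval5 hk.1).1 h'
        rw [hcons] at this
        simp at this
    · exact fun h' => by
        have := (hσ.ld_eval4 hk.1).1 h'
        rw [hcons] at this
        simp at this
    · simp only [List.length_cons, List.length_nil, Nat.mul_add]
      omega
  | @loop_nil k c s hnil =>
    intro hk hl σ hσ hN
    simp only [OCmd.maxVar, max_lt_iff] at hk
    refine ⟨ld k σ, _, OEx.seq (OEx.base (Ex.blk _ σ))
      (OEx.loop_done ((hσ.ld_eval5 hk.1).2 hnil)), ?_, hσ.ld k, by rw [ld_regs (by omega), hN], rfl⟩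
    simp only [List.length_cons, List.length_nil]
    omega
  | @loop_cons k c s s' s'' t t' hne h1 _ ih1 ih2 =>
    intro hk hl σ hσ hN
    have hk' := hk
    simp only [OCmd.maxVar, max_lt_iff] at hk
    obtain ⟨σ1, t1, e1, b1, r1, n1, d1⟩ := ih1 hk.2 (fun j => by have := hl j; omega) (ld k σ)
      (hσ.ld k) (by rw [ld_regs (by omega), hN])
    obtain ⟨σ2, t2, e2, b2, r2, n2, d2⟩ := ih2 hk' (fun j => by
      have := hl j
      have := h1.length_le j
      omega) σ1 r1 n1
    have e2' : ∃ t3, OEx I.O w ρ (.loop (.eq 2 5) (.seq (otr K c)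
        (.base (.blk [.load 2 (12 + k)])))) (ld k σ1) σ2 t3 ∧ t2 = 1 + t3 := by
      cases e2 with
      | seq a b =>
        cases a with
        | base a =>
          cases a with
          | blk => exact ⟨_, b, rfl⟩
    obtain ⟨t3, e3, rfl⟩ := e2'
    refine ⟨σ2, _, OEx.seq (OEx.base (Ex.blk _ σ))
      (OEx.loop_step ?_ (OEx.seq e1 (OEx.base (Ex.blk _ _))) e3), ?_, r2, n2, d2.trans d1⟩
    · exact fun h' => hne ((hσ.ld_eval5 hk.1).1 h')
    · simp only [List.length_cons, List.length_nil, Nat.mul_add]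
      omega

end Crest.Agent.R302.ORAM
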