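import Crest.Agent.R302.ORAM.OPTF
import Crest.Agent.Lib.PT.ArithMore
import Crest.Agent.Lib.PT.ArithRat
import Crest.Agent.Lib.PT.ListFns2

/-!
# The typed layer on a domain; binary to unary for numbers at most `I.sz`
-/

set_option autoImplicit false
set_option linter.dupNamespace false

namespace Crest.Agent.R302.ORAM

open Crest.Agent.R309.RAM
open Crest.Agent.Lib.PT Function

/-- polynomial time relative to the oracle, on the domain `D` -/
def OPTFD {α β : Type} [PTCode α] [PTCode β] (D : Inst → α → Prop) (f : Inst → α → β) : Prop :=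
  ∃ g, OPT (fun I x => ∃ a, D I a ∧ x = enc a) g ∧ ∀ I a, D I a → g I (enc a) = enc (f I a)

section basic

variable {α β γ δ : Type} [PTCode α] [PTCode β] [PTCode γ] [PTCode δ]

theorem OPTFD.of_optf {f : Inst → α → β} (hf : OPTF f) (D : Inst → α → Prop) : OPTFD D f := by
  obtain ⟨g, hg, h⟩ := hf
  exact ⟨g, hg.weaken fun I x ⟨a, _, hx⟩ => ⟨a, hx⟩, fun I a _ => h I a⟩

theorem OPTFD.of_ptf {f : α → β} (hf : PTF f) (D : Inst → α → Prop) : OPTFD D (fun _ a => f a) :=
  OPTFD.of_optf (OPTF.of_ptf hf) D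

theorem OPTFD.comp {D : Inst → α → Prop} {D' : Inst → β → Prop} {g : Inst → β → γ}
    {f : Inst → α → β} (hg : OPTFD D' g) (hf : OPTFD D f) (h : ∀ I a, D I a → D' I (f I a)) :
    OPTFD D (fun I a => g I (f I a)) := by
  obtain ⟨g', hg', hg⟩ := hg
  obtain ⟨f', hf', hf⟩ := hf
  refine ⟨_, hg'.comp hf' ?_, fun I a ha => by rw [hf I a ha, hg I _ (h I a ha)]⟩
  rintro I _ ⟨a, ha, rfl⟩
  exact ⟨f I a, h I a ha, hf I a ha⟩

theorem OPTFD.prodMk {D : Inst → α → Prop} {f : Inst → α → β} {g : Inst → α → γ}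
    (hf : OPTFD D f) (hg : OPTFD D g) : OPTFD D (fun I a => (f I a, g I a)) := by
  obtain ⟨g', hg', hg⟩ := hg
  obtain ⟨f', hf', hf⟩ := hf
  exact ⟨_, OPT.pair hf' hg', fun I a ha => by rw [hf I a ha, hg I a ha]; rfl⟩

theorem OPTFD.iterate {D : Inst → γ → Prop} {n : Inst → γ → ℕ} {f : Inst → γ → α → α}
    {a : Inst → γ → α} (hn : OPTFD D (fun I c => Un.mk (n I c)))
    (hf : OPTF (fun I (p : γ × α) => f I p.1 p.2)) (ha : OPTFD D a)
    {B : Inst → γ → ℕ} (hB : OPB B)
    (hb : ∀ I c, D I c → ∀ i ≤ n I c, sz ((f I c)^[i] (a I c)) ≤ B I c) :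
    OPTFD D (fun I c => (f I c)^[n I c] (a I c)) := by
  obtain ⟨p, hp⟩ := hB
  obtain ⟨nR, hnR, hn⟩ := hn
  obtain ⟨fR, hfR, hf⟩ := hf
  obtain ⟨aR, haR, ha⟩ := ha
  let S : Inst → List Bool → List Bool := fun I s =>
    Crest.Agent.Lib.PT.pair (Crest.Agent.Lib.PT.fst s) (fR I s)
  have hS : OPT (Dom (γ × α)) S := OPT.pair (OPT.of_pt PT.fst) hfR
  have key : ∀ I c i, (S I)^[i] (Crest.Agent.Lib.PT.pair (enc c) (enc (a I c))) =
      Crest.Agent.Lib.PT.pair (enc c) (enc ((f I c)^[i] (a I c))) := by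
    intro I c i
    induction i with
    | zero => rfl
    | succ i ih =>
      rw [Function.iterate_succ_apply', ih, Function.iterate_succ_apply']
      have h1 := hf I (c, (f I c)^[i] (a I c))
      simp only [enc_prod] at h1
      simp only [S, fst_pair, h1]
  have hit : OPT (fun I x => ∃ a, D I a ∧ x = enc a) (fun I x => (S I)^[(nR I x).length]
      (Crest.Agent.Lib.PT.pair x (aR I x))) := by
    refine OPT.iter' (D' := Dom (γ × α)) hS hnR (OPT.pair (OPT.of_pt PT.id) haR) ?_
      ⟨2 * Polynomial.X + 1 + p, ?_⟩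
    · rintro I _ ⟨c, hc, rfl⟩ i _
      rw [ha I c hc, key]
      exact ⟨(c, (f I c)^[i] (a I c)), rfl⟩
    · rintro I _ ⟨c, hc, rfl⟩ i hi
      rw [hn I c hc, enc_un, List.length_replicate] at hi
      rw [ha I c hc, key, length_pair]
      have h1 := (hb I c hc i hi).trans (hp I c)
      have h2 : (enc c).length = sz c := rfl
      have h3 : (enc ((f I c)^[i] (a I c))).length = sz ((f I c)^[i] (a I c)) := rfl
      rw [h2, h3]
      simp only [Polynomial.eval_add, Polynomial.eval_mul, Polynomial.eval_ofNat,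
        Polynomial.eval_X, Polynomial.eval_one]
      omega
  refine ⟨_, (OPT.of_pt (D := fun _ _ => True) PT.snd).comp hit fun _ _ _ => trivial,
    fun I c hc => ?_⟩
  simp only [hn I c hc, ha I c hc, enc_un, List.length_replicate, key, snd_pair]

end basic

theorem double_iter (a i : ℕ) : (fun u : Un => Un.mk (min a (2 * u.val + 1)))^[i] (Un.mk 0) =
    Un.mk (min a (2 ^ i - 1)) := by
  induction i with
  | zero => simp
  | succ i ih =>
    rw [Function.iterate_succ_apply', ih]
    simp only [Un.mk.injEq]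
    have : 0 < 2 ^ i := by positivity
    rw [pow_succ]
    omega

/-- binary to unary for numbers at most `I.sz` -/
theorem optfd_unary : OPTFD (fun I a => a ≤ I.sz) (fun _ (a : ℕ) => Un.mk a) := by
  have h := OPTFD.iterate (D := fun (I : Inst) (a : ℕ) => a ≤ I.sz) (n := fun _ a => a.size)
    (f := fun _ a (u : Un) => Un.mk (min a (2 * u.val + 1))) (a := fun _ _ => Un.mk 0)
    (B := fun I _ => I.sz)
    (OPTFD.of_ptf (PTF.natSizeUn PTF.id) _)
    (OPTF.of_ptf (PTF.natMinUn PTF.fst (PTU.add (PTU.mul (PTU.const 2)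
      (PTU.val PTF.snd)) (PTU.const 1))))
    (OPTFD.of_ptf (PTF.const _) _) OPB.inst (fun I a ha i _ => by
      rw [double_iter, sz_un]
      exact (min_le_left _ _).trans ha)
  obtain ⟨g, hg, h⟩ := h
  refine ⟨g, hg, fun I a ha => ?_⟩
  rw [h I a ha]
  simp only [double_iter]
  rw [min_eq_left (by have := Nat.lt_size_self a; omega)]

end Crest.Agent.R302.ORAM
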