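import Crest.Agent.R302.ORAM.OneShot
import Crest.Agent.R302.ORAM.DomF
import Crest.Prelude.Def_Polymatroid

/-!
# From a typed randomised estimator to the oracle word RAM, in the form of S0461 / S0462
-/

set_option autoImplicit false
set_option linter.dupNamespace false

namespace Crest.Agent.R302.ORAM

open Crest.WordRAM hiding init
open Crest.OracleRAM Crest.Polymatroid
open Crest.Agent.R309.RAM
open Crest.Agent.Lib.PT Function

/-! ### the typed input -/

/-- typed input: `n` (unary), `R`, `ε`, `δ`, `⌈1/ε⌉` (unary) -/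
abbrev CIn : Type := Un × ℕ × ℚ × ℚ × Un

/-- the typed input of the counting problem -/
def cin (n R : ℕ) (ε δ : ℚ) : CIn := (⟨n⟩, R, ε, δ, ⟨⌈ε⁻¹⌉₊⟩)

/-- reading the input words -/
def parse (L : List ℕ) : (ℕ × ℕ) × (ℕ × ℚ × ℚ) × ℕ :=
  ((L.getD 0 0, ⌈(mkRat (L.getD 2 0 : ℕ) (L.getD 3 0))⁻¹⌉₊),
    (L.getD 1 0, mkRat (L.getD 2 0 : ℕ) (L.getD 3 0), mkRat (L.getD 4 0 : ℕ) (L.getD 5 0)),
    L.getD 6 0)

theorem ptf_getC (k : ℕ) : PTF (fun L : List ℕ => L.getD k 0) :=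
  PTF.getD (n := fun _ => k) (l := fun L => L) (d := fun _ => 0) (PTU.const k) PTF.id (PTF.const 0)

theorem ptf_ratC (k m : ℕ) : PTF (fun L : List ℕ => mkRat (L.getD k 0 : ℕ) (L.getD m 0)) :=
  PTF.ratMk (PTF.intNatCast (ptf_getC k)) (ptf_getC m)

theorem ptf_natCeil {γ : Type} [PTCode γ] {f : γ → ℚ} (hf : PTF f) :
    PTF (fun a => ⌈f a⌉₊) :=
  (PTF.intToNat (PTF.ratCeil hf)).of_eq (fun a => by rw [Int.ceil_toNat])

theorem ptf_parse : PTF parse :=
  PTF.prodMk (PTF.prodMk (ptf_getC 0) (ptf_natCeil (PTF.ratInv (ptf_ratC 2 3))))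
    (PTF.prodMk (PTF.prodMk (ptf_getC 1) (PTF.prodMk (ptf_ratC 2 3) (ptf_ratC 4 5))) (ptf_getC 6))

/-- the domain on which the input can be converted -/
def CDom (I : Inst) (L : List ℕ) : Prop := (parse L).1.1 ≤ I.sz ∧ (parse L).1.2 ≤ I.sz

/-- the conversion of the input words -/
def cpre (L : List ℕ) : CIn × ℕ :=
  ((⟨(parse L).1.1⟩, (parse L).2.1.1, (parse L).2.1.2.1, (parse L).2.1.2.2, ⟨(parse L).1.2⟩),
    (parse L).2.2)

theorem optfd_cpre : OPTFD CDom (fun _ L => cpre L) := by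
  have hp (D : Inst → List ℕ → Prop) : OPTFD D (fun _ L => parse L) := OPTFD.of_ptf ptf_parse D
  have h1 : OPTFD CDom (fun _ L => Un.mk (parse L).1.1) :=
    OPTFD.comp (f := fun _ (L : List ℕ) => (parse L).1.1) optfd_unary
      (OPTFD.of_ptf (PTF.comp (g := fun p : (ℕ × ℕ) × (ℕ × ℚ × ℚ) × ℕ => p.1.1) (by fun_prop)
        ptf_parse) _) (fun I L h => h.1)
  have h2 : OPTFD CDom (fun _ L => Un.mk (parse L).1.2) :=
    OPTFD.comp (f := fun _ (L : List ℕ) => (parse L).1.2) optfd_unary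
      (OPTFD.of_ptf (PTF.comp (g := fun p : (ℕ × ℕ) × (ℕ × ℚ × ℚ) × ℕ => p.1.2) (by fun_prop)
        ptf_parse) _) (fun I L h => h.2)
  have h3 (f : (ℕ × ℕ) × (ℕ × ℚ × ℚ) × ℕ → ℕ) (hf : PTF f) :
      OPTFD CDom (fun _ L => f (parse L)) := OPTFD.of_ptf (PTF.comp hf ptf_parse) _
  have h4 (f : (ℕ × ℕ) × (ℕ × ℚ × ℚ) × ℕ → ℚ) (hf : PTF f) :
      OPTFD CDom (fun _ L => f (parse L)) := OPTFD.of_ptf (PTF.comp hf ptf_parse) _
  exact OPTFD.prodMk (OPTFD.prodMk h1 (OPTFD.prodMk (h3 (fun p => p.2.1.1) (by fun_prop))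
    (OPTFD.prodMk (h4 (fun p => p.2.1.2.1) (by fun_prop))
      (OPTFD.prodMk (h4 (fun p => p.2.1.2.2) (by fun_prop)) h2))))
    (h3 (fun p => p.2.2) (by fun_prop))

/-! ### the output words -/

/-- `A` in base `2 ^ w` with `k` digits -/
def digs (w k A : ℕ) : List ℕ := (List.range k).map fun i => A / 2 ^ (w * i) % 2 ^ w

theorem wordsVal_digs (w : ℕ) : ∀ k A : ℕ, wordsVal w (digs w k A) = A % 2 ^ (w * k) := by
  intro k
  induction k with
  | zero => intro A; simp [digs, wordsVal, Nat.mod_one]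
  | succ k ih =>
    intro A
    have h1 : digs w (k + 1) A = (A % 2 ^ w) :: digs w k (A / 2 ^ w) := by
      unfold digs
      rw [List.range_succ_eq_map, List.map_cons, List.map_map]
      congr 1
      · simp
      · refine List.map_congr_left fun i _ => ?_
        simp only [comp_apply, Nat.succ_eq_add_one]
        rw [Nat.div_div_eq_div_mul, ← pow_add]
        congr 3
        ring
    rw [h1]
    simp only [wordsVal]
    rw [ih, show w * (k + 1) = w + w * k by ring, pow_add, Nat.mod_mul]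

theorem length_digs (w k A : ℕ) : (digs w k A).length = k := by simp [digs]

/-- number of digits used -/
def ndig (z : ℚ) : ℕ := z.num.natAbs.size + z.den.size + 1

/-- the output words of a rational -/
def wordsOut (w : ℕ) (z : ℚ) : List ℕ :=
  ndig z :: (digs w (ndig z) z.num.natAbs ++ digs w (ndig z) z.den)

theorem decodeRat_wordsOut {w : ℕ} (hw : 1 ≤ w) {z : ℚ} (hz : 0 ≤ z) :
    decodeRat w (wordsOut w z) = some z := by
  have hlt : ∀ A : ℕ, A.size ≤ ndig z → A % 2 ^ (w * ndig z) = A := by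
    intro A hA
    refine Nat.mod_eq_of_lt ((Nat.lt_size_self A).trans_le (Nat.pow_le_pow_right (by omega) ?_))
    exact hA.trans (Nat.le_mul_of_pos_left _ (by omega))
  unfold wordsOut decodeRat
  simp only
  rw [List.take_left' (length_digs _ _ _), List.drop_left' (length_digs _ _ _), wordsVal_digs,
    wordsVal_digs, hlt _ (by unfold ndig; omega), hlt _ (by unfold ndig; omega),
    if_neg z.den_nz]
  congr 1
  have h1 : ((z.num.natAbs : ℕ) : ℚ) = (z.num : ℚ) := by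
    rw [Nat.cast_natAbs, abs_of_nonneg (Rat.num_nonneg.2 hz)]
  rw [h1]
  exact z.num_div_den

theorem mem_wordsOut {w : ℕ} {z : ℚ} (hk : ndig z < 2 ^ w) : ∀ a ∈ wordsOut w z, a < 2 ^ w := by
  intro a ha
  have hp : 0 < 2 ^ w := by positivity
  simp only [wordsOut, digs, List.mem_cons, List.mem_append, List.mem_map, List.mem_range] at ha
  rcases ha with rfl | ⟨i, _, rfl⟩ | ⟨i, _, rfl⟩
  · exact hk
  · exact Nat.mod_lt _ hp
  · exact Nat.mod_lt _ hp

theorem ptf_digs {γ : Type} [PTCode γ] {w k A : γ → ℕ} (hw : PTU w) (hk : PTU k) (hA : PTF A) :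
    PTF (fun c => digs (w c) (k c) (A c)) := by
  have h : PTF (fun c => (List.range (k c)).map
      (fun i => A c / 2 ^ (w c * min i (k c)) % 2 ^ (w c))) := by
    refine PTF.tabulate (f := fun c i => A c / 2 ^ (w c * min i (k c)) % 2 ^ (w c)) hk ?_
    refine PTF.natMod (PTF.natDiv (PTF.comp hA PTF.fst) (PTF.natTwoPow
      (PTU.mul (PTU.comp hw PTF.fst) ?_))) (PTF.natTwoPow (PTU.comp hw PTF.fst))
    exact PTF.natMinUn PTF.snd (PTU.comp hk PTF.fst)
  refine h.of_eq fun c => ?_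
  unfold digs
  refine List.map_congr_left fun i hi => ?_
  rw [min_eq_left (List.mem_range.1 hi).le]

theorem ptu_ndig {γ : Type} [PTCode γ] {z : γ → ℚ} (hz : PTF z) : PTU (fun c => ndig (z c)) :=
  PTU.add (PTU.add (PTF.natSizeUn (PTF.intNatAbs (PTF.ratNum hz)))
    (PTF.natSizeUn (PTF.ratDen hz))) (PTU.const 1)

theorem ptf_wordsOut {γ : Type} [PTCode γ] {w : γ → ℕ} {z : γ → ℚ} (hw : PTU w) (hz : PTF z) :
    PTF (fun c => wordsOut (w c) (z c)) :=
  PTF.listCons (PTU.toPTF (ptu_ndig hz)) (PTF.append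
    (ptf_digs hw (ptu_ndig hz) (PTF.intNatAbs (PTF.ratNum hz)))
    (ptf_digs hw (ptu_ndig hz) (PTF.ratDen hz)))

/-! ### bounds on the parameters -/

/-- the base of the word length -/
def wbase (n R : ℕ) (ε δ : ℚ) : ℕ :=
  n + R + ε.num.natAbs + ε.den + δ.num.natAbs + δ.den + 2

theorem clog_le_succ (m : ℕ) : Nat.clog 2 (m + 2) ≤ m + 1 :=
  Nat.clog_le_of_le_pow (Nat.succ_le_of_lt Nat.lt_two_pow_self)

theorem natAbs_num_pos {z : ℚ} (hz : 0 < z) : 1 ≤ z.num.natAbs := by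
  have := Rat.num_pos.2 hz
  omega

theorem ceil_inv_le {ε : ℚ} (hε : 0 < ε) : ⌈ε⁻¹⌉₊ ≤ ε.den := by
  rw [Nat.ceil_le]
  have h1 : (1 : ℚ) ≤ ε.num := by exact_mod_cast Rat.num_pos.2 hε
  have hd : (0 : ℚ) < ε.den := by exact_mod_cast ε.den_pos
  rw [inv_le_comm₀ hε hd]
  calc ((ε.den : ℚ))⁻¹ ≤ ε.num * (ε.den : ℚ)⁻¹ := by
        have : (0 : ℚ) ≤ (ε.den : ℚ)⁻¹ := by positivity
        nlinarith
    _ = ε := by rw [← div_eq_mul_inv]; exact ε.num_div_den

theorem two_le_den {δ : ℚ} (hδ : 0 < δ) (hδ1 : δ < 1) : 2 ≤ δ.den := by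
  by_contra h
  have h1 : δ.den = 1 := by have := δ.den_pos; omega
  have h2 : δ = δ.num := by
    conv_lhs => rw [← δ.num_div_den, h1]
    simp
  have h3 : 0 < δ.num := Rat.num_pos.2 hδ
  have h4 : (δ.num : ℚ) < 1 := h2 ▸ hδ1
  have h5 : δ.num < 1 := by exact_mod_cast h4
  omega

theorem sizeParam_le {n R : ℕ} {ε δ : ℚ} (hε : 0 < ε) (hδ : 0 < δ) (hδ1 : δ < 1) :
    sizeParam n R ε δ + 1 ≤ 2 * wbase n R ε δ := by
  unfold sizeParam wbase
  have h1 := clog_le_succ R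
  have h2 := clog_le_succ ε.num.natAbs
  have h3 := clog_le_succ ε.den
  have h4 := clog_le_succ δ.num.natAbs
  have h5 := clog_le_succ δ.den
  have h6 := ceil_inv_le hε
  have h7 := natAbs_num_pos hε
  have h8 := natAbs_num_pos hδ
  have h9 := two_le_den hδ hδ1
  omega

theorem two_pow_clog_ge (m : ℕ) : m + 2 ≤ 2 ^ Nat.clog 2 (m + 2) := Nat.le_pow_clog (by omega) _

theorem clog_wbase_le (n R : ℕ) (ε δ : ℚ) : Nat.clog 2 (wbase n R ε δ) ≤ sizeParam n R ε δ := by
  apply Nat.clog_le_of_le_pow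
  unfold sizeParam wbase
  have key : ∀ x y X Y : ℕ, x + 2 ≤ X → y + 2 ≤ Y → x + y + 2 ≤ X * Y := by
    intro x y X Y hX hY
    calc x + y + 2 ≤ (x + 2) * (y + 2) := by nlinarith
      _ ≤ X * Y := Nat.mul_le_mul hX hY
  have key1 : n + R + 2 ≤ 2 ^ n * 2 ^ Nat.clog 2 (R + 2) := by
    have h1 : n + 1 ≤ 2 ^ n := Nat.succ_le_of_lt Nat.lt_two_pow_self
    calc n + R + 2 ≤ (n + 1) * (R + 2) := by nlinarith
      _ ≤ _ := Nat.mul_le_mul h1 (two_pow_clog_ge R)
  have key2 := key _ _ _ _ key1 (two_pow_clog_ge ε.num.natAbs)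
  have key3 := key _ _ _ _ key2 (two_pow_clog_ge ε.den)
  have key4 := key _ _ _ _ key3 (two_pow_clog_ge δ.num.natAbs)
  have key5 := key _ _ _ _ key4 (two_pow_clog_ge δ.den)
  rw [pow_add, pow_add, pow_add, pow_add, pow_add, pow_add]
  exact key5.trans (Nat.le_mul_of_pos_right _ (by positivity))

theorem size_le_clog (m : ℕ) : m.size ≤ Nat.clog 2 (m + 2) :=
  Nat.size_le.2 (by have := two_pow_clog_ge m; omega)

theorem poly_bound (q : Polynomial ℕ) : ∃ A d : ℕ, ∀ y, 1 ≤ y → q.eval y ≤ A * y ^ d := by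
  refine ⟨q.eval 1, q.natDegree, fun y hy => ?_⟩
  rw [Polynomial.eval_eq_sum_range, Polynomial.eval_eq_sum_range, Finset.sum_mul]
  refine Finset.sum_le_sum fun i hi => ?_
  rw [one_pow, mul_one]
  exact Nat.mul_le_mul_left _ (Nat.pow_le_pow_right hy (by
    have := Finset.mem_range.1 hi
    omega))

theorem exists_exp (M d : ℕ) : ∃ c, d ≤ c ∧ 1 ≤ c ∧ M * c ^ d ≤ 2 ^ c := by
  have h := tendsto_pow_const_mul_const_pow_of_abs_lt_one d (r := (1 / 2 : ℝ))
    (by rw [abs_of_pos] <;> norm_num)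
  have hM : (0 : ℝ) < 1 / (M + 1) := by positivity
  obtain ⟨c, hc⟩ := ((h.eventually (gt_mem_nhds hM)).and
    ((Filter.eventually_ge_atTop d).and (Filter.eventually_ge_atTop 1))).exists
  refine ⟨c, hc.2.1, hc.2.2, ?_⟩
  have h1 := hc.1
  have h2 : (0 : ℝ) < 2 ^ c := by positivity
  have h3 : (c : ℝ) ^ d * (M + 1) < 2 ^ c := by
    rw [lt_div_iff₀ (by positivity : (0 : ℝ) < M + 1)] at h1
    rw [one_div, inv_pow] at h1
    have h4 : (c : ℝ) ^ d * (2 ^ c)⁻¹ * (M + 1) * 2 ^ c < 1 * 2 ^ c :=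
      mul_lt_mul_of_pos_right h1 h2
    have h5 : (c : ℝ) ^ d * (2 ^ c)⁻¹ * (M + 1) * 2 ^ c = (c : ℝ) ^ d * (M + 1) := by
      field_simp
    rw [h5, one_mul] at h4
    exact h4
  have h6 : (M : ℝ) * c ^ d ≤ 2 ^ c := by
    have : (0 : ℝ) ≤ (c : ℝ) ^ d := by positivity
    nlinarith
  exact_mod_cast h6

/-- the choice of the constants -/
theorem choose_consts (q : Polynomial ℕ) : ∃ c₀ C d : ℕ, 1 ≤ c₀ ∧ ∀ b S x : ℕ, 2 ≤ b →
    S + 1 ≤ 2 * b → Nat.clog 2 b ≤ S → x ≤ 3 * S + 6 + c₀ * Nat.clog 2 b →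
    q.eval x ≤ 2 ^ (c₀ * Nat.clog 2 b) ∧ q.eval x ≤ C * (S + 1) ^ d := by
  obtain ⟨A, d, hA⟩ := poly_bound q
  obtain ⟨c, hdc, hc1, hc⟩ := exists_exp (A * 20 ^ d * 2 ^ d) d
  refine ⟨c, A * (c + 6) ^ d, d, hc1, ?_⟩
  intro b S x hb hS hcl hx
  have hx1 : x ≤ (c + 6) * (S + 1) := by
    have : c * Nat.clog 2 b ≤ c * S := Nat.mul_le_mul_left _ hcl
    nlinarith
  have hx2 : (c + 6) * (S + 1) ≤ 20 * c * b := by
    calc (c + 6) * (S + 1) ≤ (10 * c) * (2 * b) := Nat.mul_le_mul (by omega) hS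
      _ = 20 * c * b := by ring
  have hpos : 1 ≤ (c + 6) * (S + 1) := Nat.succ_le_of_lt (by positivity)
  have hq : q.eval x ≤ A * ((c + 6) * (S + 1)) ^ d :=
    (eval_mono q hx1).trans (hA _ hpos)
  constructor
  · have hbw : b ^ c ≤ 2 ^ (c * Nat.clog 2 b) := by
      rw [mul_comm, pow_mul]
      exact Nat.pow_le_pow_left (Nat.le_pow_clog (by omega) _) _
    refine hq.trans (le_trans ?_ hbw)
    have h1 : A * ((c + 6) * (S + 1)) ^ d ≤ A * (20 * c * b) ^ d :=
      Nat.mul_le_mul_left _ (Nat.pow_le_pow_left hx2 _)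
    refine h1.trans ?_
    have h2 : A * 20 ^ d * c ^ d ≤ b ^ (c - d) := by
      have h3 : A * 20 ^ d * c ^ d ≤ 2 ^ (c - d) := by
        have h4 : A * 20 ^ d * c ^ d * 2 ^ d ≤ 2 ^ (c - d) * 2 ^ d := by
          rw [← pow_add, Nat.sub_add_cancel hdc]
          calc A * 20 ^ d * c ^ d * 2 ^ d = A * 20 ^ d * 2 ^ d * c ^ d := by ring
            _ ≤ 2 ^ c := hc
        exact Nat.le_of_mul_le_mul_right h4 (by positivity)
      exact h3.trans (Nat.pow_le_pow_left hb _)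
    calc A * (20 * c * b) ^ d = A * 20 ^ d * c ^ d * b ^ d := by
          rw [mul_pow, mul_pow]; ring
      _ ≤ b ^ (c - d) * b ^ d := Nat.mul_le_mul_right _ h2
      _ = b ^ c := by rw [← pow_add, Nat.sub_add_cancel hdc]
  · refine hq.trans_eq ?_
    rw [mul_pow]
    ring

/-! ### the instance and the main theorem -/

/-- the oracle instance with size bound `sizeParam` -/
def mkI {n R : ℕ} (O : Orc n) (hO : ∀ b A, O b A ≤ max R 1) (ε δ : ℚ) : Inst where
  n := n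
  O := O
  sz := sizeParam n R ε δ
  hn := by unfold sizeParam; omega
  hO := fun b A => by
    have h1 := hO b A
    have h2 := two_pow_clog_ge R
    have h3 : (O b A).size ≤ Nat.clog 2 (R + 2) := Nat.size_le.2 (by omega)
    unfold sizeParam
    omega

/-- the output words as a typed function -/
def outF (G : Inst → CIn × List Bool → ℚ) (I : Inst) (p : (CIn × ℕ) × List Bool) : List ℕ :=
  wordsOut p.1.2.size (G I (p.1.1, p.2))

theorem optf_outF {G : Inst → CIn × List Bool → ℚ} (hG : OPTF G) : OPTF (outF G) := by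
  have h0 : PTF (fun p : (CIn × ℕ) × List Bool => (p.1.1, p.2)) :=
    PTF.prodMk (PTF.comp (g := fun q : CIn × ℕ => q.1) PTF.fst PTF.fst) PTF.snd
  have h2 : PTF (fun p : (CIn × ℕ) × List Bool => p.1.2) :=
    PTF.comp (g := fun q : CIn × ℕ => q.2) PTF.snd PTF.fst
  have h1 : OPTF (fun I (p : (CIn × ℕ) × List Bool) => (p.1.2, G I (p.1.1, p.2))) :=
    OPTF.prodMk (f := fun _ (p : (CIn × ℕ) × List Bool) => p.1.2)
      (g := fun I (p : (CIn × ℕ) × List Bool) => G I (p.1.1, p.2)) (OPTF.of_ptf h2)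
      (OPTF.pre (g := G) (f := fun p : (CIn × ℕ) × List Bool => (p.1.1, p.2)) hG h0)
  exact OPTF.post (g := fun p : ℕ × ℚ => wordsOut p.1.size p.2)
    (f := fun I (p : (CIn × ℕ) × List Bool) => (p.1.2, G I (p.1.1, p.2)))
    (ptf_wordsOut (PTF.natSizeUn PTF.fst) PTF.snd) h1

/-- **Randomised estimators given as typed functions run on the oracle word RAM.** -/
theorem fpras_of {G : Inst → CIn × List Bool → ℚ} {N : CIn → ℕ} (hG : OPTF G) (hN : PTU N) :
    ∃ (P : OProgram) (c₀ C d : ℕ), ∀ (n R : ℕ) (O : Orc n) (hO : ∀ b A, O b A ≤ max R 1)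
      (ε δ : ℚ), 0 < ε → ε < 1 → 0 < δ → δ < 1 →
      (∀ τ : List Bool, τ.length = N (cin n R ε δ) →
        0 ≤ G (mkI O hO ε δ) (cin n R ε δ, τ)) →
      (∀ ρ : ℕ → ℕ, (orun P n O (c₀ * Nat.clog 2 (wbase n R ε δ)) ρ (countInput n R ε δ)
        (C * (sizeParam n R ε δ + 1) ^ d)).cfg.halted = true) ∧
      (∀ ρ : ℕ → ℕ, ∃ τ : List Bool, τ.length = N (cin n R ε δ) ∧
        decodeRat (c₀ * Nat.clog 2 (wbase n R ε δ)) (orun P n O
          (c₀ * Nat.clog 2 (wbase n R ε δ)) ρ (countInput n R ε δ)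
          (C * (sizeParam n R ε δ + 1) ^ d)).cfg.output =
          some (G (mkI O hO ε δ) (cin n R ε δ, τ))) ∧
      (∀ E : ℚ → Prop, oprobAfter P n O (c₀ * Nat.clog 2 (wbase n R ε δ)) (countInput n R ε δ)
        (C * (sizeParam n R ε δ + 1) ^ d) (fun c => ∃ z : ℚ,
          decodeRat (c₀ * Nat.clog 2 (wbase n R ε δ)) c.cfg.output = some z ∧ E z) =
        Crest.Agent.R309.Tape.pr (N (cin n R ε δ))
          (fun τ => E (G (mkI O hO ε δ) (cin n R ε δ, τ)))) := by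
  obtain ⟨g, hg, hg'⟩ := optfd_cpre
  obtain ⟨pG, hpG⟩ := hG.bound
  obtain ⟨pN, hpN⟩ := hN.pb
  -- the typed function with words as output
  have hF : OPTF (outF G) := optf_outF hG
  have hN' : PTU (fun p : CIn × ℕ => N p.1) := PTU.comp hN PTF.fst
  obtain ⟨P, q, hP⟩ := oneshot (D := CDom) (pre := fun _ L => cpre L) (g := g) hg
    (fun I L h => hg' I L h) hN' hF
  set q' : Polynomial ℕ := q + pG.comp (2 * (10 * Polynomial.X + 40) + 1 +
    3 * pN.comp (10 * Polynomial.X + 40) + Polynomial.X) + 1 with hq'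
  obtain ⟨c₀, C, d, hc1, hc⟩ := choose_consts q'
  refine ⟨P, c₀, C, d, ?_⟩
  intro n R O hO ε δ hε hε1 hδ hδ1 hpos
  set I : Inst := mkI O hO ε δ with hI
  set w : ℕ := c₀ * Nat.clog 2 (wbase n R ε δ) with hw
  set S : ℕ := sizeParam n R ε δ with hS
  set T : ℕ := C * (S + 1) ^ d with hT
  set L : List ℕ := countInput n R ε δ with hL
  set x : CIn := cin n R ε δ with hx
  have hb2 : 8 ≤ wbase n R ε δ := by
    have h6 := two_le_den hε hε1
    have h7 := natAbs_num_pos hε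
    have h8 := natAbs_num_pos hδ
    have h9 := two_le_den hδ hδ1
    unfold wbase
    omega
  -- sizes
  have s0 : n.size ≤ n := Nat.size_le.2 Nat.lt_two_pow_self
  have s1 := size_le_clog R
  have s2 := size_le_clog ε.num.natAbs
  have s3 := size_le_clog ε.den
  have s4 := size_le_clog δ.num.natAbs
  have s5 := size_le_clog δ.den
  have hszL : sz L ≤ 2 * S + 6 := by
    simp only [hL, countInput, sz_cons, sz_nil, sz_nat]
    rw [hS]
    unfold sizeParam
    omega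
  have hszx : sz x ≤ 10 * S + 40 := by
    simp only [hx, cin, sz_prod, sz_un, sz_nat, sz_rat]
    rw [hS]
    unfold sizeParam
    omega
  obtain ⟨hc2, hc3⟩ := hc (wbase n R ε δ) S (sz L + w + S) (by omega)
    (sizeParam_le hε hδ hδ1) (clog_wbase_le n R ε δ) (by omega)
  set X : ℕ := sz L + w + S with hX
  have hq'X : q'.eval X = q.eval X + pG.eval (2 * (10 * X + 40) + 1 + 3 * pN.eval (10 * X + 40) +
      X) + 1 := by
    simp [hq', Polynomial.eval_comp]
  rw [hq'X] at hc2 hc3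
  rw [← hw] at hc2
  have hIsz : I.sz = S := rfl
  have hwbase : wbase n R ε δ ≤ 2 ^ w := by
    have h1 : wbase n R ε δ ≤ 2 ^ Nat.clog 2 (wbase n R ε δ) := Nat.le_pow_clog (by omega) _
    refine h1.trans (Nat.pow_le_pow_right (by omega) ?_)
    exact Nat.le_mul_of_pos_left _ hc1
  have hw1 : 1 ≤ w := by
    by_contra h
    have : w = 0 := by omega
    rw [this] at hwbase
    omega
  -- parsing
  have hlen : L.length = 6 := rfl
  have hpw : (2 ^ (w - 1)).size = w := by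
    rw [Nat.size_pow]
    omega
  have hεn : (ε.num.natAbs : ℤ) = ε.num := Int.natAbs_of_nonneg (Rat.num_nonneg.2 hε.le)
  have hδn : (δ.num.natAbs : ℤ) = δ.num := Int.natAbs_of_nonneg (Rat.num_nonneg.2 hδ.le)
  have hparse : parse (L ++ [2 ^ (w - 1)]) = ((n, ⌈ε⁻¹⌉₊), (R, ε, δ), 2 ^ (w - 1)) := by
    have e1 : mkRat ((L ++ [2 ^ (w - 1)]).getD 2 0 : ℕ) ((L ++ [2 ^ (w - 1)]).getD 3 0) = ε := by
      show mkRat (ε.num.natAbs : ℤ) ε.den = ε
      rw [hεn, Rat.mkRat_self]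
    have e2 : mkRat ((L ++ [2 ^ (w - 1)]).getD 4 0 : ℕ) ((L ++ [2 ^ (w - 1)]).getD 5 0) = δ := by
      show mkRat (δ.num.natAbs : ℤ) δ.den = δ
      rw [hδn, Rat.mkRat_self]
    unfold parse
    rw [e1, e2]
    rfl
  have hcpre : cpre (L ++ [2 ^ (w - 1)]) = (x, 2 ^ (w - 1)) := by
    unfold cpre
    rw [hparse]
    rfl
  have hdom : CDom I (L ++ [2 ^ (w - 1)]) := by
    unfold CDom
    rw [hparse]
    refine ⟨I.hn, ?_⟩
    show ⌈ε⁻¹⌉₊ ≤ sizeParam n R ε δ
    unfold sizeParam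
    omega
  have hmain := hP I w L hdom rfl (by
    intro a ha
    have h9 : a + 1 < wbase n R ε δ := by
      have h6 := two_le_den hε hε1
      have h7 := natAbs_num_pos hε
      have h8 := natAbs_num_pos hδ
      have h9 := two_le_den hδ hδ1
      unfold wbase
      simp only [hL, countInput, List.mem_cons, List.not_mem_nil, or_false] at ha
      rcases ha with rfl | rfl | rfl | rfl | rfl | rfl <;> omega
    omega) (by
    intro b A
    have h1 : I.O b A ≤ max R 1 := hO b A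
    have h9 : max R 1 + 1 < wbase n R ε δ := by
      have h6 := two_le_den hε hε1
      have h7 := natAbs_num_pos hε
      have h8 := natAbs_num_pos hδ
      have h9 := two_le_den hδ hδ1
      unfold wbase
      omega
    omega) (by
    rw [hIsz]
    show q.eval X ≤ 2 ^ w
    omega) (by
    simp only [hcpre]
    intro τ hτ
    simp only [outF, hpw]
    apply mem_wordsOut
    have h1 : ndig (G I (x, τ)) ≤ sz (G I (x, τ)) := by
      unfold ndig
      rw [sz_rat]
      omega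
    have h4 : sz τ = 3 * τ.length := Arith.sz_boolList τ
    have h5 : τ.length ≤ pN.eval (10 * X + 40) := by
      rw [hτ]
      exact (hpN x).trans (eval_mono pN (by omega))
    have h3 : sz (x, τ) + I.sz ≤ 2 * (10 * X + 40) + 1 + 3 * pN.eval (10 * X + 40) + X := by
      rw [sz_prod, hIsz]
      show 2 * sz x + 1 + sz τ + S ≤ _
      omega
    have h6 : sz (G I (x, τ)) ≤ pG.eval (2 * (10 * X + 40) + 1 + 3 * pN.eval (10 * X + 40) + X) :=
      (hpG I (x, τ)).trans (eval_mono pG h3)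
    show ndig (G I (x, τ)) < 2 ^ w
    omega) T (by
    rw [hIsz]
    show q.eval X ≤ T
    omega)
  obtain ⟨_, hNT, hrun⟩ := hmain
  simp only [hcpre] at hNT hrun
  have hdec : ∀ ρ, decodeRat w (orun P n O w ρ L T).cfg.output =
      some (G I (x, rbits w ρ 0 (N x))) := by
    intro ρ
    have h1 : (orun P n O w ρ L T).cfg.output = outF G I ((x, 2 ^ (w - 1)), rbits w ρ 0 (N x)) :=
      (hrun ρ).2
    rw [h1]
    simp only [outF, hpw]
    exact decodeRat_wordsOut hw1 (hpos _ (rbits_length _ _ _ _))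
  refine ⟨fun ρ => (hrun ρ).1, fun ρ => ⟨_, rbits_length _ _ _ _, hdec ρ⟩, fun E => ?_⟩
  refine oprobAfter_eq hw1 hNT _ _ fun ρ => ?_
  constructor
  · rintro ⟨z, hz, hE⟩
    rw [hdec ρ, Option.some.injEq] at hz
    rw [hz]
    exact hE
  · intro h
    exact ⟨_, hdec ρ, h⟩

end Crest.Agent.R302.ORAM
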