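import Crest.Agent.R309.RAMDec
import Crest.Prelude.Def_OracleRAM

/-!
# Structured oracle programs compiled to the oracle word RAM

`OProg` extends the structured programs `Prog` of R309 by one query instruction; `OEx` is the
big-step semantics; `OEx.run` is the correctness of the compilation.
-/

set_option autoImplicit false

namespace Crest.Agent.R302.ORAM

open Crest.WordRAM hiding init
open Crest.OracleRAM
open Crest.Agent.R309.RAM
open Crest.Agent.Lib.PT Function

/-- oracles on subsets of `Fin n` -/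
abbrev Orc (n : ℕ) : Type := Bool → Finset (Fin n) → ℕ

/-- structured oracle programs -/
inductive OProg
  | base (p : Prog)
  | query (b : Bool) (a d : ℕ)
  | seq (p q : OProg)
  | ite (c : Cond) (p q : OProg)
  | loop (c : Cond) (p : OProg)

namespace OProg

/-- all registers below `r` -/
def ok (r : ℕ) : OProg → Prop
  | base p => p.ok r
  | query _ a d => a < r ∧ d < r
  | seq p q => p.ok r ∧ q.ok r
  | ite c p q => c.ok r ∧ p.ok r ∧ q.ok r
  | loop c p => c.ok r ∧ p.ok r

/-- code length -/
def len : OProg → ℕ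
  | base p => p.len
  | query _ _ _ => 1
  | seq p q => p.len + q.len
  | ite _ p q => q.len + 2 + p.len
  | loop _ p => p.len + 2

/-- compilation at offset `o` -/
def comp (r : ℕ) [NeZero r] : OProg → ℕ → List (OInstr r)
  | base p, o => (p.comp r o).map OInstr.base
  | query b a d, _ => [.query b (Fin.ofNat r a) (Fin.ofNat r d)]
  | seq p q, o => p.comp r o ++ q.comp r (o + p.len)
  | ite c p q, o =>
      .base (c.jmp r (o + 2 + q.len)) :: (q.comp r (o + 1) ++
        (.base (.jump (o + 2 + q.len + p.len)) :: p.comp r (o + 2 + q.len)))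
  | loop c p, o => .base (c.jmp r (o + p.len + 2)) :: (p.comp r (o + 1) ++ [.base (.jump o)])

theorem length_comp (r : ℕ) [NeZero r] (p : OProg) : ∀ o, (p.comp r o).length = p.len := by
  induction p with
  | base p => intro o; simp [comp, len, Prog.length_comp]
  | query b a d => intro o; simp [comp, len]
  | seq p q ihp ihq => intro o; simp [comp, len, ihp, ihq]
  | ite c p q ihp ihq => intro o; simp [comp, len, ihp, ihq]; omega
  | loop c p ih => intro o; simp [comp, len, ih]

end OProg

/-- the set asked by a query -/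
def qset (n : ℕ) (M : ℕ → ℕ) (a : ℕ) : Finset (Fin n) :=
  Finset.univ.filter fun j : Fin n => M (a + j.val) ≠ 0

/-- effect of a query -/
def qeff {n : ℕ} (O : Orc n) (w : ℕ) (b : Bool) (a d : ℕ) (s : St) : St :=
  { s with regs := Function.update s.regs d (O b (qset n s.mem (s.regs a)) % 2 ^ w) }

/-- big-step semantics with step counts -/
inductive OEx {n : ℕ} (O : Orc n) (w : ℕ) (ρ : ℕ → ℕ) : OProg → St → St → ℕ → Prop
  | base {p : Prog} {s s' : St} {t : ℕ} : Ex w ρ p s s' t → OEx O w ρ (.base p) s s' t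
  | query (b : Bool) (a d : ℕ) (s : St) : OEx O w ρ (.query b a d) s (qeff O w b a d s) 1
  | seq {p q : OProg} {s s' s'' : St} {t t' : ℕ} :
      OEx O w ρ p s s' t → OEx O w ρ q s' s'' t' → OEx O w ρ (.seq p q) s s'' (t + t')
  | ite_true {c : Cond} {p q : OProg} {s s' : St} {t : ℕ} :
      c.eval s → OEx O w ρ p s s' t → OEx O w ρ (.ite c p q) s s' (1 + t)
  | ite_false {c : Cond} {p q : OProg} {s s' : St} {t : ℕ} :
      ¬ c.eval s → OEx O w ρ q s s' t → OEx O w ρ (.ite c p q) s s' (1 + t + 1)
  | loop_done {c : Cond} {p : OProg} {s : St} : c.eval s → OEx O w ρ (.loop c p) s s 1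
  | loop_step {c : Cond} {p : OProg} {s s' s'' : St} {t t' : ℕ} :
      ¬ c.eval s → OEx O w ρ p s s' t → OEx O w ρ (.loop c p) s' s'' t' →
        OEx O w ρ (.loop c p) s s'' (1 + t + 1 + t')

/-- the code `l` sits at position `o` -/
def OAt {r : ℕ} (code : List (OInstr r)) (o : ℕ) (l : List (OInstr r)) : Prop :=
  ∀ i, i < l.length → code[o + i]? = l[i]?

theorem OAt.app {r : ℕ} {code : List (OInstr r)} {o : ℕ} {l l' : List (OInstr r)}
    (h : OAt code o (l ++ l')) : OAt code o l ∧ OAt code (o + l.length) l' := by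
  constructor
  · intro i hi
    rw [h i (by simp; omega), List.getElem?_append_left hi]
  · intro i hi
    have := h (l.length + i) (by simp; omega)
    rw [List.getElem?_append_right (by omega)] at this
    rw [add_assoc, this]
    congr 1
    omega

theorem OAt.cons {r : ℕ} {code : List (OInstr r)} {o : ℕ} {a : OInstr r} {l : List (OInstr r)}
    (h : OAt code o (a :: l)) : code[o]? = some a ∧ OAt code (o + 1) l := by
  constructor
  · have := h 0 (by simp)
    simpa using this
  · intro i hi
    have := h (i + 1) (by simp; omega)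
    rw [List.getElem?_cons_succ] at this
    rw [← this]
    congr 1
    omega

theorem OAt.self {r : ℕ} (code : List (OInstr r)) : OAt code 0 code := by
  intro i _
  rw [Nat.zero_add]

/-- the oracle configuration of a state -/
def ocfg (r pc : ℕ) (s : St) (k : ℕ) : OCfg r := ⟨cfg r pc s, k⟩

section steps

variable {n : ℕ} {O : Orc n} {P : OProgram} {w : ℕ} {ρ : ℕ → ℕ}

theorem baseProgram_numRegs (P : OProgram) : (baseProgram P).numRegs = P.numRegs := rfl

theorem base_code {pc : ℕ} {i : Instr P.numRegs} (h : P.code[pc]? = some (.base i)) :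
    (baseProgram P).code[pc]? = some i := by
  show (P.code.map OInstr.toBase)[pc]? = some i
  rw [List.getElem?_map, h]
  rfl

theorem ostep_base {pc : ℕ} {s : St} {k : ℕ} {i : Instr P.numRegs}
    (h : P.code[pc]? = some (.base i)) :
    ostep P n O w ρ (ocfg P.numRegs pc s k) =
      ⟨step (baseProgram P) w ρ (cfg P.numRegs pc s), k⟩ := by
  unfold ostep
  have hh : (ocfg P.numRegs pc s k).cfg.halted = false := rfl
  have hp : (ocfg P.numRegs pc s k).cfg.pc = pc := rfl
  simp only [hh, hp, h, Bool.false_eq_true, if_false]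
  rfl

theorem ostep_op [NeZero P.numRegs] {i : Op} {pc : ℕ} {s : St} {k : ℕ}
    (hok : i.ok P.numRegs) (h : P.code[pc]? = some (.base (i.toInstr P.numRegs))) :
    ostep P n O w ρ (ocfg P.numRegs pc s k) = ocfg P.numRegs (pc + 1) (i.eff w ρ s) k := by
  haveI : NeZero (baseProgram P).numRegs := inferInstanceAs (NeZero P.numRegs)
  rw [ostep_base h]
  have := step_op (P := baseProgram P) (w := w) (ρ := ρ) (s := s) hok (base_code h)
  exact congrArg (fun c => (⟨c, k⟩ : OCfg P.numRegs)) this

theorem ostep_jmp [NeZero P.numRegs] {c : Cond} {pc l : ℕ} {s : St} {k : ℕ}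
    (hok : c.ok P.numRegs) (h : P.code[pc]? = some (.base (c.jmp P.numRegs l))) :
    ostep P n O w ρ (ocfg P.numRegs pc s k) =
      ocfg P.numRegs (if c.eval s then l else pc + 1) s k := by
  haveI : NeZero (baseProgram P).numRegs := inferInstanceAs (NeZero P.numRegs)
  rw [ostep_base h]
  have := step_jmp (P := baseProgram P) (w := w) (ρ := ρ) (s := s) hok (base_code h)
  exact congrArg (fun c => (⟨c, k⟩ : OCfg P.numRegs)) this

theorem ostep_jump {pc l : ℕ} {s : St} {k : ℕ} (h : P.code[pc]? = some (.base (.jump l))) :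
    ostep P n O w ρ (ocfg P.numRegs pc s k) = ocfg P.numRegs l s k := by
  rw [ostep_base h]
  have := step_jump (P := baseProgram P) (w := w) (ρ := ρ) (s := s) (base_code h)
  exact congrArg (fun c => (⟨c, k⟩ : OCfg P.numRegs)) this

theorem ostep_query [NeZero P.numRegs] {b : Bool} {a d pc : ℕ} {s : St} {k : ℕ}
    (ha : a < P.numRegs) (hd : d < P.numRegs)
    (h : P.code[pc]? = some (.query b (Fin.ofNat P.numRegs a) (Fin.ofNat P.numRegs d))) :
    ostep P n O w ρ (ocfg P.numRegs pc s k) =
      ocfg P.numRegs (pc + 1) (qeff O w b a d s) (k + 1) := by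
  unfold ostep
  have hh : (ocfg P.numRegs pc s k).cfg.halted = false := rfl
  have hp : (ocfg P.numRegs pc s k).cfg.pc = pc := rfl
  simp only [hh, hp, h, Bool.false_eq_true, if_false]
  unfold ocfg qeff
  congr 1
  show Cfg.mk _ _ _ _ _ = Cfg.mk _ _ _ _ _
  congr 1
  have e : ((Fin.ofNat P.numRegs a : Fin P.numRegs) : ℕ) = a := ofNat_val ha
  show writeReg (fun j : Fin P.numRegs => s.regs j) _ (O b (Finset.univ.filter fun j : Fin n =>
    s.mem (s.regs ((Fin.ofNat P.numRegs a : Fin P.numRegs) : ℕ) + j.val) ≠ 0) % 2 ^ w) = _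
  rw [e, writeReg_eq hd]
  rfl

theorem orun_ops [NeZero P.numRegs] (l : List Op) :
    ∀ {pc : ℕ} {s : St} {k : ℕ}, (∀ i ∈ l, i.ok P.numRegs) →
    OAt P.code pc ((l.map (Op.toInstr P.numRegs)).map OInstr.base) →
    (ostep P n O w ρ)^[l.length] (ocfg P.numRegs pc s k) =
      ocfg P.numRegs (pc + l.length) (effs w ρ l s) k := by
  induction l with
  | nil => intro pc s k _ _; rfl
  | cons i l ih =>
    intro pc s k hok h
    rw [List.map_cons, List.map_cons] at h
    obtain ⟨h1, h2⟩ := h.cons
    rw [List.length_cons, Function.iterate_succ_apply, ostep_op (hok i (by simp)) h1,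
      ih (fun j hj => hok j (by simp [hj])) h2, effs_cons]
    congr 1
    omega

/-- correctness of the compilation, query-free part -/
theorem ex_orun [NeZero P.numRegs] {p : Prog} {s s' : St} {t : ℕ}
    (h : Ex w ρ p s s' t) : ∀ {o k : ℕ}, p.ok P.numRegs →
    OAt P.code o ((p.comp P.numRegs o).map OInstr.base) →
    (ostep P n O w ρ)^[t] (ocfg P.numRegs o s k) = ocfg P.numRegs (o + p.len) s' k := by
  induction h with
  | blk l s => intro o k hok h; exact orun_ops l hok h
  | @seq p q s s' s'' t t' _ _ ih1 ih2 =>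
    intro o k hok h
    rw [Prog.comp, List.map_append] at h
    obtain ⟨h1, h2⟩ := h.app
    rw [List.length_map, Prog.length_comp] at h2
    rw [add_comm t t', Function.iterate_add_apply, ih1 hok.1 h1, ih2 hok.2 h2]
    simp only [Prog.len, add_assoc]
  | @ite_true c p q s s' t hc _ ih =>
    intro o k hok h
    rw [Prog.comp, List.map_cons, List.map_append, List.map_cons] at h
    obtain ⟨h1, h2⟩ := h.cons
    obtain ⟨h3, h4⟩ := h2.app
    obtain ⟨h5, h6⟩ := h4.cons
    rw [List.length_map, Prog.length_comp] at h5 h6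
    rw [add_comm 1 t, Function.iterate_add_apply, Function.iterate_one, ostep_jmp hok.1 h1,
      if_pos hc]
    have e : o + 1 + q.len + 1 = o + 2 + q.len := by omega
    rw [e] at h6
    rw [ih hok.2.1 h6]
    simp only [Prog.len]
    congr 1
    omega
  | @ite_false c p q s s' t hc _ ih =>
    intro o k hok h
    rw [Prog.comp, List.map_cons, List.map_append, List.map_cons] at h
    obtain ⟨h1, h2⟩ := h.cons
    obtain ⟨h3, h4⟩ := h2.app
    obtain ⟨h5, h6⟩ := h4.cons
    rw [List.length_map, Prog.length_comp] at h5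
    rw [show 1 + t + 1 = 1 + (t + 1) by omega, Function.iterate_add_apply,
      Function.iterate_add_apply, Function.iterate_one, ostep_jmp hok.1 h1, if_neg hc,
      ih hok.2.2 h3, ostep_jump h5]
    simp only [Prog.len]
    congr 1
    omega
  | @loop_done c p s hc =>
    intro o k hok h
    rw [Prog.comp, List.map_cons, List.map_append] at h
    obtain ⟨h1, h2⟩ := h.cons
    rw [Function.iterate_one, ostep_jmp hok.1 h1, if_pos hc]
    simp only [Prog.len]
    congr 1
  | @loop_step c p s s' s'' t t' hc _ _ ih1 ih2 =>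
    intro o k hok h
    have h0 := h
    rw [Prog.comp, List.map_cons, List.map_append] at h
    obtain ⟨h1, h2⟩ := h.cons
    obtain ⟨h3, h4⟩ := h2.app
    obtain ⟨h5, _⟩ := h4.cons
    rw [List.length_map, Prog.length_comp] at h5
    rw [show 1 + t + 1 + t' = t' + (1 + (t + 1)) by omega, Function.iterate_add_apply,
      Function.iterate_add_apply, Function.iterate_add_apply, Function.iterate_one,
      ostep_jmp hok.1 h1, if_neg hc, ih1 hok.2 h3, ostep_jump h5, ih2 hok h0]

/-- correctness of the compilation -/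
theorem OEx.run [NeZero P.numRegs] {p : OProg} {s s' : St} {t : ℕ}
    (h : OEx O w ρ p s s' t) : ∀ {o k : ℕ}, p.ok P.numRegs →
    OAt P.code o (p.comp P.numRegs o) →
    ∃ k', (ostep P n O w ρ)^[t] (ocfg P.numRegs o s k) = ocfg P.numRegs (o + p.len) s' k' := by
  induction h with
  | base h => intro o k hok hc; exact ⟨k, ex_orun h hok hc⟩
  | query b a d s =>
    intro o k hok h
    obtain ⟨h1, _⟩ := h.cons
    exact ⟨k + 1, ostep_query hok.1 hok.2 h1⟩
  | @seq p q s s' s'' t t' _ _ ih1 ih2 =>
    intro o k hok h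
    obtain ⟨h1, h2⟩ := OAt.app h
    rw [OProg.length_comp] at h2
    obtain ⟨k1, e1⟩ := ih1 (k := k) hok.1 h1
    obtain ⟨k2, e2⟩ := ih2 (k := k1) hok.2 h2
    refine ⟨k2, ?_⟩
    rw [add_comm t t', Function.iterate_add_apply, e1, e2]
    simp only [OProg.len, add_assoc]
  | @ite_true c p q s s' t hc _ ih =>
    intro o k hok h
    obtain ⟨h1, h2⟩ := h.cons
    obtain ⟨h3, h4⟩ := h2.app
    obtain ⟨h5, h6⟩ := h4.cons
    rw [OProg.length_comp] at h5 h6
    have e : o + 1 + q.len + 1 = o + 2 + q.len := by omega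
    rw [e] at h6
    obtain ⟨k1, e1⟩ := ih (k := k) hok.2.1 h6
    refine ⟨k1, ?_⟩
    rw [add_comm 1 t, Function.iterate_add_apply, Function.iterate_one, ostep_jmp hok.1 h1,
      if_pos hc, e1]
    simp only [OProg.len]
    congr 1
    omega
  | @ite_false c p q s s' t hc _ ih =>
    intro o k hok h
    obtain ⟨h1, h2⟩ := h.cons
    obtain ⟨h3, h4⟩ := h2.app
    obtain ⟨h5, h6⟩ := h4.cons
    rw [OProg.length_comp] at h5
    obtain ⟨k1, e1⟩ := ih (k := k) hok.2.2 h3
    refine ⟨k1, ?_⟩
    rw [show 1 + t + 1 = 1 + (t + 1) by omega, Function.iterate_add_apply,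
      Function.iterate_add_apply, Function.iterate_one, ostep_jmp hok.1 h1, if_neg hc,
      e1, ostep_jump h5]
    simp only [OProg.len]
    congr 1
    omega
  | @loop_done c p s hc =>
    intro o k hok h
    obtain ⟨h1, h2⟩ := h.cons
    refine ⟨k, ?_⟩
    rw [Function.iterate_one, ostep_jmp hok.1 h1, if_pos hc]
    simp only [OProg.len]
    congr 1
  | @loop_step c p s s' s'' t t' hc _ _ ih1 ih2 =>
    intro o k hok h
    have h0 := h
    obtain ⟨h1, h2⟩ := h.cons
    obtain ⟨h3, h4⟩ := h2.app
    obtain ⟨h5, _⟩ := h4.cons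
    rw [OProg.length_comp] at h5
    obtain ⟨k1, e1⟩ := ih1 (k := k) hok.2 h3
    obtain ⟨k2, e2⟩ := ih2 (k := k1) hok h0
    refine ⟨k2, ?_⟩
    rw [show 1 + t + 1 + t' = t' + (1 + (t + 1)) by omega, Function.iterate_add_apply,
      Function.iterate_add_apply, Function.iterate_add_apply, Function.iterate_one,
      ostep_jmp hok.1 h1, if_neg hc, e1, ostep_jump h5, e2]

end steps

/-! ### registers beyond the bound are not touched -/

theorem Op.eff_frame {w : ℕ} {ρ : ℕ → ℕ} {i : Op} {r : ℕ} (hok : i.ok r) (s : St) {j : ℕ}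
    (hj : r ≤ j) : (i.eff w ρ s).regs j = s.regs j := by
  cases i with
  | const d v =>
    have : d < r := hok
    simp [Op.eff, show j ≠ d by omega]
  | copy d a =>
    have : d < r := hok.1
    simp [Op.eff, show j ≠ d by omega]
  | add d a b =>
    have : d < r := hok.1
    simp [Op.eff, show j ≠ d by omega]
  | sub d a b =>
    have : d < r := hok.1
    simp [Op.eff, show j ≠ d by omega]
  | mul d a b =>
    have : d < r := hok.1
    simp [Op.eff, show j ≠ d by omega]
  | quot d a b =>
    have : d < r := hok.1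
    simp [Op.eff, show j ≠ d by omega]
  | rem d a b =>
    have : d < r := hok.1
    simp [Op.eff, show j ≠ d by omega]
  | load d a =>
    have : d < r := hok.1
    simp [Op.eff, show j ≠ d by omega]
  | store a b => rfl
  | rand d =>
    have : d < r := hok
    simp [Op.eff, show j ≠ d by omega]

theorem effs_frame {w : ℕ} {ρ : ℕ → ℕ} {r : ℕ} (l : List Op) :
    ∀ (_ : ∀ i ∈ l, i.ok r) (s : St) {j : ℕ} (_ : r ≤ j), (effs w ρ l s).regs j = s.regs j := by
  induction l with
  | nil => intro _ s j _; rfl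
  | cons i l ih =>
    intro hok s j hj
    rw [effs_cons, ih (fun i' hi' => hok i' (by simp [hi'])) _ hj,
      Op.eff_frame (hok i (by simp)) s hj]

theorem Ex.frame {w : ℕ} {ρ : ℕ → ℕ} {p : Prog} {s s' : St} {t r : ℕ} (h : Ex w ρ p s s' t)
    (hok : p.ok r) {j : ℕ} (hj : r ≤ j) : s'.regs j = s.regs j := by
  induction h with
  | blk l s => exact effs_frame l hok s hj
  | seq _ _ ih1 ih2 => rw [ih2 hok.2, ih1 hok.1]
  | ite_true _ _ ih => exact ih hok.2.1
  | ite_false _ _ ih => exact ih hok.2.2
  | loop_done _ => rfl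
  | loop_step _ _ _ ih1 ih2 => rw [ih2 hok, ih1 hok.2]

theorem Op.ok_mono {i : Op} {r r' : ℕ} (h : i.ok r) (hr : r ≤ r') : i.ok r' := by
  cases i <;> simp only [Op.ok] at * <;> omega

theorem Cond.ok_mono {c : Cond} {r r' : ℕ} (h : c.ok r) (hr : r ≤ r') : c.ok r' := by
  cases c <;> simp only [Cond.ok] at * <;> omega

theorem Prog.ok_mono {p : Prog} {r r' : ℕ} (h : p.ok r) (hr : r ≤ r') : p.ok r' := by
  induction p with
  | blk l => exact fun i hi => Op.ok_mono (h i hi) hr
  | seq p q ihp ihq => exact ⟨ihp h.1, ihq h.2⟩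
  | ite c p q ihp ihq => exact ⟨Cond.ok_mono h.1 hr, ihp h.2.1, ihq h.2.2⟩
  | loop c p ih => exact ⟨Cond.ok_mono h.1 hr, ih h.2⟩

end Crest.Agent.R302.ORAM
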