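import Crest.Agent.R302.ORAM.OPTF
import Crest.Agent.R309.RAMMachine

/-!
# The one-shot oracle machine

Read the input words (the first one is `n`), append the word `2 ^ (w - 1)`, run the program `h` on
the coded list, draw as many random bits as the result is long, run the program `c` on the pair of
the two, write the output words and halt.
-/

set_option autoImplicit false

namespace Crest.Agent.R302.ORAM

open Crest.WordRAM hiding init
open Crest.OracleRAM
open Crest.Agent.R309.RAM
open Crest.Agent.Lib.PT Function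

/-- preamble -/
def preO (K : ℕ) : Prog :=
  .seq (.blk [.load (12 + K) 3]) (.seq (boot K) (.seq (.blk [.store 7 0, .add 0 0 4]) encP))

/-- final part -/
def postO : Prog := .seq (.blk [.load 2 (12 + 0)]) decP

/-- the whole program -/
def wholeO (K : ℕ) (h c : OCmd) : OProg :=
  .seq (.base (preO K)) (.seq (otr K h) (.seq (.base (.seq drawP (tr (roundC .skip))))
    (.seq (otr K c) (.base postO))))

instance (K : ℕ) : NeZero (13 + K) := ⟨by omega⟩

/-- the machine -/
def omachine (K : ℕ) (h c : OCmd) : OProgram where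
  numRegs := 13 + K
  code := (wholeO K h c).comp (13 + K) 0

instance (K : ℕ) (h c : OCmd) : NeZero (omachine K h c).numRegs :=
  inferInstanceAs (NeZero (13 + K))

theorem wholeO_ok {K : ℕ} {h c : OCmd} (hK : 2 < K) (hh : h.maxVar < K) (hc : c.maxVar < K) :
    (wholeO K h c).ok (13 + K) := by
  refine ⟨⟨?_, ?_, ?_, ?_⟩, otr_ok hh, ⟨?_, ?_⟩, otr_ok hc, ?_, ?_⟩
  · intro i hi
    simp only [List.mem_cons, List.not_mem_nil, or_false] at hi
    subst hi
    simp only [Op.ok]; omega
  · exact Prog.ok_mono (boot_ok K) (by omega)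
  · intro i hi
    simp only [List.mem_cons, List.not_mem_nil, or_false] at hi
    rcases hi with rfl | rfl <;> simp only [Op.ok] <;> omega
  · exact Prog.ok_mono (encP_ok K (by omega)) (by omega)
  · exact Prog.ok_mono (drawP_ok K (by omega)) (by omega)
  · refine Prog.ok_mono (tr_ok (N := K) ?_) (by omega)
    simp only [roundC, Cmd.maxVar, mv, mvMap, pushAll]
    omega
  · intro i hi
    simp only [List.mem_cons, List.not_mem_nil, or_false] at hi
    subst hi
    simp only [Op.ok]; omega
  · exact Prog.ok_mono (decP_ok K (by omega)) (by omega)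

theorem preO_run {w K H : ℕ} (ρ : ℕ → ℕ) (hK : 2 < K) (hw : 2 ≤ w)
    (hH : K * (H + 1) ≤ 2 ^ (w - 1)) (n : ℕ) (L : List ℕ) (hn : L.head? = some n)
    (hL : ∀ a ∈ L, a + 1 < 2 ^ w) (hroom : (enc (L ++ [2 ^ (w - 1)])).length + 2 ≤ H)
    (σ : St) (h0 : σ.regs 0 = L.length % 2 ^ w) (h3 : σ.regs 3 = 0)
    (hm : ∀ i, σ.mem i = L[i]?.getD 0 % 2 ^ w) (hd : σ.drawn = 0) :
    ∃ σ' t, Ex w ρ (preO K) σ σ' t ∧ t ≤ 4 * w + 3 * K + 13 + (10 + 12 * w) * (L.length + 1) ∧
      Rep w K (init (false :: enc (L ++ [2 ^ (w - 1)]))) σ' ∧ σ'.regs (12 + K) = n ∧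
      σ'.drawn = 0 := by
  have hB := two_pow_half (show 1 ≤ w by omega)
  have hKle : 3 * (H + 1) ≤ 2 ^ (w - 1) :=
    (Nat.mul_le_mul_right (H + 1) (show 3 ≤ K by omega)).trans hH
  have hK3 : K * 3 ≤ 2 ^ (w - 1) :=
    (Nat.mul_le_mul_left K (show 3 ≤ H + 1 by omega)).trans hH
  have hlen : (L ++ [2 ^ (w - 1)]).length ≤ (enc (L ++ [2 ^ (w - 1)])).length := length_le_enc _
  simp only [List.length_append, List.length_cons, List.length_nil] at hlen
  have hLlen : L.length % 2 ^ w = L.length := Nat.mod_eq_of_lt (by omega)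
  -- first instruction
  set σ1 := effs w ρ [.load (12 + K) 3] σ with hσ1
  have a1 : σ1.regs (12 + K) = n := by
    simp only [hσ1, effs_cons, effs_nil, Op.eff, update_self]
    rw [h3, hm]
    cases L with
    | nil => simp at hn
    | cons a L =>
      simp only [List.head?_cons, Option.some.injEq] at hn
      subst hn
      simp only [List.getElem?_cons_zero, Option.getD_some]
      exact Nat.mod_eq_of_lt (by have := hL a (by simp); omega)
  have aj : ∀ j, j < 12 → σ1.regs j = σ.regs j := by
    intro j hj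
    simp [hσ1, Op.eff, show j ≠ 12 + K by omega]
  obtain ⟨σ2, t2, e2, b2, r2, c0, cm, cd⟩ := boot_run (K := K) ρ hw (by omega) σ1
    (by rw [aj 3 (by omega), h3])
  have c12 : σ2.regs (12 + K) = n := by
    rw [Ex.frame e2 (boot_ok K) (le_refl _), a1]
  set σ3 := effs w ρ [.store 7 0, .add 0 0 4] σ2 with hσ3
  have h0' : σ2.regs 0 = L.length := by rw [c0, aj 0 (by omega), h0, hLlen]
  have hst : (effs w ρ [.store 7 0] σ2).mem = update σ2.mem L.length (2 ^ (w - 1)) := by
    simp only [effs_cons, effs_nil, Op.eff]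
    rw [h0', r2.base]
  have r3 : Rep w K (init []) σ3 := by
    have hr : Rep w K (init []) (effs w ρ [.store 7 0] σ2) := by
      refine Rep.congr r2 rfl rfl rfl rfl rfl (fun _ _ => rfl) ?_
      intro a ha
      rw [hst, update_of_ne]
      omega
    simp only [hσ3, effs_cons, effs_nil]
    simp only [effs_cons, effs_nil] at hr
    exact hr.scratch (d := 0) _ (by omega)
  have g0 : σ3.regs 0 = L.length + 1 := by
    simp only [hσ3, effs_cons, effs_nil, Op.eff, update_self]
    rw [r2.one, h0']
    exact Nat.mod_eq_of_lt (by omega)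
  have gm : ∀ i, σ3.mem i = if i = L.length then 2 ^ (w - 1) else σ2.mem i := by
    intro i
    have : σ3.mem i = (effs w ρ [.store 7 0] σ2).mem i := rfl
    rw [this, hst, update_apply]
  have g12 : σ3.regs (12 + K) = n := by
    simp only [hσ3, effs_cons, effs_nil, Op.eff]
    rw [update_of_ne (show 12 + K ≠ 0 by omega), c12]
  obtain ⟨σ4, t4, e4, b4, r4, d4⟩ := encP_run ρ (show 1 ≤ w by omega) hH (by omega)
    (L ++ [2 ^ (w - 1)]) (by
      intro a ha
      rw [List.mem_append, List.mem_singleton] at ha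
      rcases ha with ha | rfl
      · exact hL a ha
      · omega) (by
      simp only [List.length_append, List.length_cons, List.length_nil]
      omega) (by omega) σ3 r3 (by
      rw [g0]
      simp) (by
      intro j hj
      simp only [List.length_append, List.length_cons, List.length_nil] at hj
      rw [gm]
      by_cases hjL : j = L.length
      · subst hjL
        simp
      · rw [if_neg hjL, cm j (by omega)]
        have hjl : j < L.length := by omega
        show σ.mem j = _
        rw [hm, List.getElem_append_left hjl, List.getElem?_eq_getElem hjl, Option.getD_some]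
        exact Nat.mod_eq_of_lt (by have := hL _ (List.getElem_mem hjl); omega))
  refine ⟨σ4, _, Ex.seq (Ex.blk _ _) (Ex.seq e2 (Ex.seq (Ex.blk _ _) e4)), ?_, r4,
    ?_, ?_⟩
  · simp only [List.length_append, List.length_cons, List.length_nil, zero_add] at b4
    simp only [List.length_cons, List.length_nil]
    omega
  · rw [Ex.frame e4 (encP_ok K (by omega)) (le_refl _), g12]
  · rw [d4]
    show σ2.drawn = 0
    rw [cd]
    exact hd

/-- a halted configuration does not change -/
theorem ostep_halted {P : OProgram} {n : ℕ} {O : Orc n} {w : ℕ} {ρ : ℕ → ℕ}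
    {c : OCfg P.numRegs} (h : c.cfg.halted = true) : ostep P n O w ρ c = c := by
  unfold ostep
  rw [if_pos h]

theorem oiterate_halted {P : OProgram} {n : ℕ} {O : Orc n} {w : ℕ} {ρ : ℕ → ℕ}
    {c : OCfg P.numRegs} (h : c.cfg.halted = true) (T : ℕ) : (ostep P n O w ρ)^[T] c = c := by
  induction T with
  | zero => rfl
  | succ T ih => rw [Function.iterate_succ_apply', ih, ostep_halted h]

theorem ostep_end {P : OProgram} {n : ℕ} {O : Orc n} {w : ℕ} {ρ : ℕ → ℕ} {pc : ℕ} {s : St} {k : ℕ}
    (h : P.code[pc]? = none) :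
    ostep P n O w ρ (ocfg P.numRegs pc s k) = ⟨hcfg P.numRegs pc s, k⟩ := by
  unfold ostep
  simp only [ocfg, cfg, Bool.false_eq_true, if_false, h, hcfg]

/-- the complete run -/
theorem omachine_run {w K H n1 n2 : ℕ} {h c : OCmd} (ρ : ℕ → ℕ) (hK : 2 < K) (hh : h.maxVar < K)
    (hc : c.maxVar < K) (hw : 2 ≤ w) (hH : K * (H + 1) ≤ 2 ^ (w - 1)) (I : Inst)
    (hI : ∀ b A, I.O b A + 1 < 2 ^ w) (L : List ℕ) (hn : L.head? = some I.n)
    (hL : ∀ a ∈ L, a + 1 < 2 ^ w) {s : List Bool} {out : List ℕ}
    (hrun : ORun I h (init (false :: enc (L ++ [2 ^ (w - 1)]))) (init s) n1)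
    (hrun' : ORun I c (init (pair s (rbits w ρ 0 s.length))) (init (true :: enc out)) n2)
    (hout : ∀ a ∈ out, a < 2 ^ w) (hlen : out.length ≤ 2 ^ (w - 1))
    (hroom1 : (enc (L ++ [2 ^ (w - 1)])).length + 2 + n1 ≤ H)
    (hroom2 : 16 * s.length + 10 + n2 ≤ H) (T : ℕ)
    (hT : 4 * w + 3 * K + 50 + (10 + 12 * w) * (L.length + 1) + (12 + 12 * w) * n1 +
      75 * s.length + (12 + 12 * w) * n2 + 9 * (enc out).length ≤ T) :
    (orun (omachine K h c) I.n I.O w ρ L T).cfg.halted = true ∧
      (orun (omachine K h c) I.n I.O w ρ L T).cfg.output = out := by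
  set σ0 : St := { regs := fun j => if j = 0 then L.length % 2 ^ w else 0
                   mem := fun i => L[i]?.getD 0 % 2 ^ w
                   drawn := 0 } with hσ0
  obtain ⟨σ1, t1, e1, b1, r1, q1, d1⟩ := preO_run ρ hK hw hH I.n L hn hL (by omega) σ0 rfl rfl
    (fun i => rfl) rfl
  -- first program
  obtain ⟨t, ht, hx⟩ := hrun
  obtain ⟨σ2, t2, e2, b2, r2, q2, d2⟩ := oexec_tr ρ (by omega) hH I hI hx hh (by
    intro k
    have : ((init (false :: enc (L ++ [2 ^ (w - 1)])) : Store) k).length ≤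
        (enc (L ++ [2 ^ (w - 1)])).length + 1 := by
      unfold init
      split <;> simp
    omega) σ1 r1 q1
  -- random bits
  obtain ⟨σ3, t3, e3, b3, r3, d3⟩ := draw_run ρ (by omega) hH hK s (by omega) σ2 r2
  have hd : σ2.drawn = 0 := d2.trans d1
  rw [hd] at r3
  obtain ⟨t', ht', hx'⟩ := roundC_run (c := .skip) (s := s) (τ := rbits w ρ 0 s.length)
    (y := pair s (rbits w ρ 0 s.length)) (n := 1) ⟨1, le_rfl, Exec.skip _⟩
  rw [rbits_length] at ht'
  obtain ⟨σ4, t4, e4, b4, r4, d4⟩ := exec_tr ρ (by omega) hH hx' (by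
    simp only [roundC, Cmd.maxVar, mv, mvMap, pushAll]
    omega) (by
    intro k
    have : ((update (update (init []) 1 s.reverse) 2
        (rbits w ρ 0 s.length).reverse : Store) k).length ≤ s.length := by
      by_cases hk2 : k = 2
      · subst hk2; simp [rbits_length]
      · by_cases hk1 : k = 1
        · subst hk1; simp
        · by_cases hk0 : k = 0
          · subst hk0; simp
          · simp [hk2, hk1, init]
    omega) σ3 r3
  have okr : (tr (roundC .skip)).ok (12 + K) := by
    refine tr_ok (N := K) ?_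
    simp only [roundC, Cmd.maxVar, mv, mvMap, pushAll]
    omega
  have q4 : σ4.regs (12 + K) = I.n := by
    rw [Ex.frame e4 okr (le_refl _), Ex.frame e3 (drawP_ok K (by omega)) (le_refl _), q2]
  -- second program
  obtain ⟨t5, ht5, hx5⟩ := hrun'
  obtain ⟨σ5, t6, e5, b5, r5, q5, d5⟩ := oexec_tr ρ (by omega) hH I hI hx5 hc (by
    intro k
    have : ((init (pair s (rbits w ρ 0 s.length)) : Store) k).length ≤ 3 * s.length + 1 := by
      unfold init
      split
      · rw [core_length_pair, rbits_length]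
        omega
      · simp
    omega) σ4 r4 q4
  -- output
  obtain ⟨σ6, t7, e6, b6, o0, o1, om, d6⟩ := decP_run ρ (by omega) (by omega) out σ5 r5 hout hlen
  have hall : OEx I.O w ρ (wholeO K h c) σ0 σ6 (t1 + (t2 + ((t3 + t4) + (t6 + (1 + t7))))) :=
    OEx.seq (OEx.base e1) (OEx.seq e2 (OEx.seq (OEx.base (Ex.seq e3 e4)) (OEx.seq e5
      (OEx.base (Ex.seq (Ex.blk _ _) e6)))))
  obtain ⟨k', hk'⟩ := OEx.run (P := omachine K h c) hall (o := 0) (k := 0) (wholeO_ok hK hh hc)
    (OAt.self _)
  rw [zero_add] at hk'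
  have hnone : (omachine K h c).code[(wholeO K h c).len]? = none := by
    apply List.getElem?_eq_none
    exact (OProg.length_comp _ _ _).le
  have hinit : (⟨WordRAM.init ⟨(omachine K h c).numRegs, []⟩ w L, 0⟩ :
      OCfg (omachine K h c).numRegs) = ocfg (omachine K h c).numRegs 0 σ0 0 := rfl
  have hfin : (ostep (omachine K h c) I.n I.O w ρ)^[1 + (t1 + (t2 + ((t3 + t4) + (t6 + (1 + t7)))))]
      (⟨WordRAM.init ⟨(omachine K h c).numRegs, []⟩ w L, 0⟩ : OCfg (omachine K h c).numRegs) =
      ⟨hcfg (omachine K h c).numRegs (wholeO K h c).len σ6, k'⟩ := by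
    rw [Function.iterate_add_apply, Function.iterate_one, hinit, hk', ostep_end hnone]
  have hle : 1 + (t1 + (t2 + ((t3 + t4) + (t6 + (1 + t7))))) ≤ T := by
    have h1 : (12 + 12 * w) * t ≤ (12 + 12 * w) * n1 := Nat.mul_le_mul_left _ ht
    have h2 : (12 + 12 * w) * t5 ≤ (12 + 12 * w) * n2 := Nat.mul_le_mul_left _ ht5
    omega
  obtain ⟨m, rfl⟩ := Nat.exists_eq_add_of_le hle
  have hrun : orun (omachine K h c) I.n I.O w ρ L
      (1 + (t1 + (t2 + ((t3 + t4) + (t6 + (1 + t7))))) + m) =
      ⟨hcfg (omachine K h c).numRegs (wholeO K h c).len σ6, k'⟩ := by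
    unfold orun
    rw [add_comm _ m, Function.iterate_add_apply, hfin, oiterate_halted rfl]
  rw [hrun]
  exact ⟨rfl, hcfg_output (show 1 < 13 + K by omega) o0 o1 om⟩

end Crest.Agent.R302.ORAM
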