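import Crest.Agent.R302.ORAM.Cmd
import Crest.Agent.Lib.PT.Iter

/-!
# Polynomial-time functions relative to an oracle: bit strings

`OPT f` for `f : Inst → List Bool → List Bool`: one program with queries computes `f I x` for every
instance `I` within `p (|x| + I.sz)` steps.
-/

set_option autoImplicit false
set_option linter.dupNamespace false

namespace Crest.Agent.R302.ORAM

open Crest.Agent.R309.RAM
open Crest.Agent.Lib.PT Function

/-! ### running programs -/

/-- `c` leads from `s` to `s'` in at most `n` steps. -/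
def ORun (I : Inst) (c : OCmd) (s s' : Store) (n : ℕ) : Prop := ∃ t, t ≤ n ∧ OExec I c s s' t

section run

variable {I : Inst}

theorem ORun.mono {c : OCmd} {s s' : Store} {n m : ℕ} (h : ORun I c s s' n) (hm : n ≤ m) :
    ORun I c s s' m := by
  obtain ⟨t, ht, h⟩ := h
  exact ⟨t, ht.trans hm, h⟩

theorem ORun.cmd {c : Cmd} {s s' : Store} {n : ℕ} (h : Run c s s' n) :
    ORun I (.cmd c) s s' n := by
  obtain ⟨t, ht, h⟩ := h
  exact ⟨t, ht, OExec.cmd h⟩

theorem ORun.seq {c d : OCmd} {s s' s'' : Store} {n m : ℕ} (h : ORun I c s s' n)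
    (h' : ORun I d s' s'' m) : ORun I (OCmd.seq c d) s s'' (n + m) := by
  obtain ⟨t, ht, h⟩ := h
  obtain ⟨t', ht', h'⟩ := h'
  exact ⟨t + t', Nat.add_le_add ht ht', OExec.seq h h'⟩

theorem ORun.ite_nil {k : ℕ} {e c d : OCmd} {s s' : Store} {n : ℕ} (hk : s k = [])
    (h : ORun I e s s' n) : ORun I (OCmd.ite k e c d) s s' (1 + n) := by
  obtain ⟨t, ht, h⟩ := h
  exact ⟨1 + t, Nat.add_le_add_left ht 1, OExec.ite_nil hk h⟩

theorem ORun.ite_true {k : ℕ} {e c d : OCmd} {s s' : Store} {n : ℕ} {l : List Bool}
    (hk : s k = true :: l) (h : ORun I c s s' n) : ORun I (OCmd.ite k e c d) s s' (1 + n) := by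
  obtain ⟨t, ht, h⟩ := h
  exact ⟨1 + t, Nat.add_le_add_left ht 1, OExec.ite_true hk h⟩

theorem ORun.ite_false {k : ℕ} {e c d : OCmd} {s s' : Store} {n : ℕ} {l : List Bool}
    (hk : s k = false :: l) (h : ORun I d s s' n) : ORun I (OCmd.ite k e c d) s s' (1 + n) := by
  obtain ⟨t, ht, h⟩ := h
  exact ⟨1 + t, Nat.add_le_add_left ht 1, OExec.ite_false hk h⟩

theorem ORun.loop_nil {k : ℕ} {c : OCmd} {s : Store} (hk : s k = []) :
    ORun I (OCmd.loop k c) s s 1 := ⟨1, le_rfl, OExec.loop_nil hk⟩

theorem ORun.loop_cons {k : ℕ} {c : OCmd} {s s' s'' : Store} {n m : ℕ} (hk : s k ≠ [])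
    (h : ORun I c s s' n) (h' : ORun I (OCmd.loop k c) s' s'' m) :
    ORun I (OCmd.loop k c) s s'' (1 + n + m) := by
  obtain ⟨t, ht, h⟩ := h
  obtain ⟨t', ht', h'⟩ := h'
  exact ⟨1 + t + t', by omega, OExec.loop_cons hk h h'⟩

theorem ORun.of_eq {c : OCmd} {s s' s'' : Store} {n m : ℕ} (h : ORun I c s s' n) (hs : s' = s'')
    (hn : n ≤ m) : ORun I c s s'' m := hs ▸ h.mono hn

end run

/-! ### shifting -/

/-- Rename stack `k` to `k + m`. -/
def OCmd.shift (m : ℕ) : OCmd → OCmd
  | .cmd c => .cmd (c.shift m)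
  | .query b k => .query b (k + m)
  | .ground k => .ground (k + m)
  | .seq c d => .seq (c.shift m) (d.shift m)
  | .ite k e c d => .ite (k + m) (e.shift m) (c.shift m) (d.shift m)
  | .loop k c => .loop (k + m) (c.shift m)

theorem OExec.shift {I : Inst} {c : OCmd} {s s' : Store} {t : ℕ} (h : OExec I c s s' t) (m : ℕ)
    (S : Store) : OExec I (c.shift m) (glue m S s) (glue m S s') t := by
  induction h with
  | cmd h => exact OExec.cmd (h.shift m S)
  | query b k s =>
    rw [glue_update]
    have := OExec.query (I := I) b (k + m) (glue m S s)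
    rwa [glue_add] at this
  | ground k s =>
    rw [glue_update]
    have := OExec.ground (I := I) (k + m) (glue m S s)
    rwa [glue_add] at this
  | seq _ _ ih1 ih2 => exact OExec.seq ih1 ih2
  | ite_nil hk _ ih => exact OExec.ite_nil (by rw [glue_add]; exact hk) ih
  | ite_true hk _ ih => exact OExec.ite_true (by rw [glue_add]; exact hk) ih
  | ite_false hk _ ih => exact OExec.ite_false (by rw [glue_add]; exact hk) ih
  | loop_nil hk => exact OExec.loop_nil (by rw [glue_add]; exact hk)
  | loop_cons hk _ _ ih1 ih2 => exact OExec.loop_cons (by rw [glue_add]; exact hk) ih1 ih2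

/-- On the domain `D`, `f` is computed by a program with queries in polynomially many steps. -/
def OPT (D : Inst → List Bool → Prop) (f : Inst → List Bool → List Bool) : Prop :=
  ∃ (c : OCmd) (p : Polynomial ℕ), ∀ I x, D I x →
    ORun I c (init x) (init (f I x)) (p.eval (x.length + I.sz))

/-- calling a program on stack `m` when all higher stacks are empty. -/
theorem ocall_run {I : Inst} {c : OCmd} {x y : List Bool} {n : ℕ} (h : ORun I c (init x) (init y) n)
    (m : ℕ) (S : Store) (hm : S m = x) (hS : ∀ j, m < j → S j = []) :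
    ORun I (c.shift m) S (update S m y) n := by
  obtain ⟨t, ht, h⟩ := h
  refine ⟨t, ht, ?_⟩
  have e1 : glue m S (init x) = S := by
    funext j
    unfold glue init
    by_cases hj : j < m
    · rw [if_pos hj]
    · rw [if_neg hj]
      by_cases h0 : j - m = 0
      · have : j = m := by omega
        rw [if_pos h0, this, hm]
      · rw [if_neg h0, hS j (by omega)]
  have e2 : glue m S (init y) = update S m y := by
    funext j
    unfold glue init
    by_cases hj : j < m
    · have : j ≠ m := by omega
      rw [if_pos hj, update_of_ne this]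
    · rw [if_neg hj]
      by_cases h0 : j - m = 0
      · have : j = m := by omega
        rw [if_pos h0, this, update_self]
      · have : j ≠ m := by omega
        rw [if_neg h0, update_of_ne this, hS j (by omega)]
  have := h.shift m S
  rwa [e1, e2] at this

theorem OPT.bound {D : Inst → List Bool → Prop} {f : Inst → List Bool → List Bool}
    (hf : OPT D f) : ∃ p : Polynomial ℕ, ∀ I x, D I x →
      (f I x).length ≤ p.eval (x.length + I.sz) := by
  obtain ⟨c, p, h⟩ := hf
  refine ⟨Polynomial.X + p, fun I x hx => ?_⟩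
  obtain ⟨t, ht, h⟩ := h I x hx
  have := h.length_le 0
  simp only [init_zero] at this
  simp only [Polynomial.eval_add, Polynomial.eval_X]
  omega

theorem OPT.congr {D : Inst → List Bool → Prop} {f g : Inst → List Bool → List Bool}
    (hf : OPT D f) (h : ∀ I x, D I x → f I x = g I x) : OPT D g := by
  obtain ⟨c, p, hc⟩ := hf
  exact ⟨c, p, fun I x hx => by rw [← h I x hx]; exact hc I x hx⟩

theorem OPT.weaken {D D' : Inst → List Bool → Prop} {f : Inst → List Bool → List Bool}
    (hf : OPT D f) (h : ∀ I x, D' I x → D I x) : OPT D' f := by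
  obtain ⟨c, p, hc⟩ := hf
  exact ⟨c, p, fun I x hx => hc I x (h I x hx)⟩

theorem OPT.of_pt {D : Inst → List Bool → Prop} {f : List Bool → List Bool} (hf : PT f) :
    OPT D (fun _ x => f x) := by
  obtain ⟨c, p, h⟩ := hf
  exact ⟨.cmd c, p, fun I x _ => (ORun.cmd (h x)).mono (polyEval_mono p (by omega))⟩

theorem OPT.comp {D D' : Inst → List Bool → Prop} {f g : Inst → List Bool → List Bool}
    (hg : OPT D' g) (hf : OPT D f) (hD : ∀ I x, D I x → D' I (f I x)) :
    OPT D (fun I x => g I (f I x)) := by
  obtain ⟨b, hb⟩ := hf.bound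
  obtain ⟨c, p, hc⟩ := hf
  obtain ⟨d, q, hd⟩ := hg
  refine ⟨.seq c d, p + q.comp (b + Polynomial.X), fun I x hx => ?_⟩
  refine ((hc I x hx).seq (hd I (f I x) (hD I x hx))).mono ?_
  rw [Polynomial.eval_add, Polynomial.eval_comp, Polynomial.eval_add, Polynomial.eval_X]
  exact Nat.add_le_add_left (polyEval_mono q (Nat.add_le_add (hb I x hx) (by omega))) _

/-- the query -/
theorem OPT.qry {D : Inst → List Bool → Prop} (b : Bool) : OPT D (fun I x => I.qry b x) := by
  refine ⟨.query b 0, 3 * Polynomial.X + 2, fun I x _ => ?_⟩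
  refine ⟨x.length + I.n + 2 * (I.ans b x).size + 2, ?_, ?_⟩
  · have h1 := I.hn
    have h2 := I.ans_size b x
    simp only [Polynomial.eval_add, Polynomial.eval_mul, Polynomial.eval_ofNat, Polynomial.eval_X]
    omega
  · have := OExec.query (I := I) b 0 (init x)
    have e : update (init x) 0 (I.qry b (init x 0)) = init (I.qry b x) := by
      funext j
      rcases j with _ | j <;> simp [init]
    rw [e] at this
    simpa using this

/-- the size of the ground set in unary -/
theorem OPT.ground {D : Inst → List Bool → Prop} : OPT D (fun I _ => List.replicate I.n true) := by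
  refine ⟨.seq (.cmd (clear 0)) (.ground 0), 3 * Polynomial.X + 2, fun I x _ => ?_⟩
  have h1 : ORun I (.cmd (clear 0)) (init x) (init []) (2 * x.length + 1) :=
    ORun.cmd ((run_clear 0 _).of_eq (by
      funext j
      rcases j with _ | j <;> simp [init]) (by simp))
  have h2 : ORun I (.ground 0) (init []) (init (List.replicate I.n true)) (I.n + 1) := by
    refine ⟨_, le_rfl, ?_⟩
    have := OExec.ground (I := I) 0 (init [])
    have e : update (init []) 0 (List.replicate I.n true ++ init [] 0) =
        init (List.replicate I.n true) := by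
      funext j
      rcases j with _ | j <;> simp [init]
    rwa [e] at this
  refine (h1.seq h2).mono ?_
  have h3 := I.hn
  simp only [Polynomial.eval_add, Polynomial.eval_mul, Polynomial.eval_ofNat, Polynomial.eval_X]
  omega

theorem ocall_one {I : Inst} {c : OCmd} {x y : List Bool} {n : ℕ}
    (h : ORun I c (init x) (init y) n)
    (a : List Bool) : ORun I (c.shift 1) (st4 a x [] []) (st4 a y [] []) n := by
  refine (ocall_run h 1 (st4 a x [] []) rfl ?_).of_eq (by simp) le_rfl
  intro j hj
  rcases j with _ | _ | _ | _ | j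
  · omega
  · omega
  all_goals rfl

theorem ocall_two {I : Inst} {c : OCmd} {x y : List Bool} {n : ℕ}
    (h : ORun I c (init x) (init y) n)
    (a b : List Bool) : ORun I (c.shift 2) (st4 a b x []) (st4 a b y []) n := by
  refine (ocall_run h 2 (st4 a b x []) rfl ?_).of_eq (by simp) le_rfl
  intro j hj
  rcases j with _ | _ | _ | _ | j
  · omega
  · omega
  · omega
  all_goals rfl

/-- Compute `f` and `g` on stack `0`, leaving the results on the stacks `1` and `2`. -/
def oboth (c d : OCmd) : OCmd :=
  .seq (.cmd dup) (.seq (c.shift 1) (.seq (.cmd (.seq (mv 0 3) (mv 3 2))) (d.shift 2)))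

theorem orun_both {I : Inst} {c d : OCmd} {x y z : List Bool} {n m : ℕ}
    (h : ORun I c (init x) (init y) n) (h' : ORun I d (init x) (init z) m) :
    ORun I (oboth c d) (init x) (st4 [] y z []) (n + m + 21 * x.length + 5) := by
  have h1 := run_dup x
  have h2 := ocall_one h x
  have h3 : Run (mv 0 3) (st4 x y [] []) (st4 [] y [] x.reverse) (4 * x.length + 1) :=
    (run_mv (by decide) _).of_eq (by simp) (by simp)
  have h4 : Run (mv 3 2) (st4 [] y [] x.reverse) (st4 [] y x []) (4 * x.length + 1) :=
    (run_mv (by decide) _).of_eq (by simp) (by simp)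
  have h5 := ocall_two h' [] y
  refine ((ORun.cmd h1).seq (h2.seq ((ORun.cmd (h3.seq h4)).seq h5))).mono (by omega)

theorem OPT.pair {D : Inst → List Bool → Prop} {f g : Inst → List Bool → List Bool}
    (hf : OPT D f) (hg : OPT D g) :
    OPT D (fun I x => Crest.Agent.Lib.PT.pair (f I x) (g I x)) := by
  obtain ⟨bf, hbf⟩ := hf.bound
  obtain ⟨bg, hbg⟩ := hg.bound
  obtain ⟨c, p, hc⟩ := hf
  obtain ⟨d, q, hd⟩ := hg
  refine ⟨.seq (oboth c d) (.cmd (.seq (mv 2 3) (.seq (mv 3 0) (.seq (.push 0 false) (.seq (mv 1 3)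
    (mvMap 3 0 (fun b => [true, b]))))))),
    p + q + 21 * Polynomial.X + 12 * bf + 8 * bg + 10, fun I x hx => ?_⟩
  have h1 := orun_both (hc I x hx) (hd I x hx)
  have h2 : Run (mv 2 3) (st4 [] (f I x) (g I x) []) (st4 [] (f I x) [] (g I x).reverse)
      (4 * (g I x).length + 1) := (run_mv (by decide) _).of_eq (by simp) (by simp)
  have h3 : Run (mv 3 0) (st4 [] (f I x) [] (g I x).reverse) (st4 (g I x) (f I x) [] [])
      (4 * (g I x).length + 1) := (run_mv (by decide) _).of_eq (by simp) (by simp)
  have h4 : Run (.push 0 false) (st4 (g I x) (f I x) [] []) (st4 (false :: g I x) (f I x) [] []) 1 :=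
    (run_push 0 false _).of_eq (by simp) (by simp)
  have h5 : Run (mv 1 3) (st4 (false :: g I x) (f I x) [] [])
      (st4 (false :: g I x) [] [] (f I x).reverse)
      (4 * (f I x).length + 1) := (run_mv (by decide) _).of_eq (by simp) (by simp)
  have h6 : Run (mvMap 3 0 (fun b => [true, b])) (st4 (false :: g I x) [] [] (f I x).reverse)
      (init (Crest.Agent.Lib.PT.pair (f I x) (g I x))) (8 * (f I x).length + 1) := by
    refine (run_mvMap (by decide) _ _).of_eq ?_ (by simp)
    rw [init_eq_st4]
    simp [Crest.Agent.Lib.PT.pair]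
  refine (h1.seq (ORun.cmd (h2.seq (h3.seq (h4.seq (h5.seq h6)))))).mono ?_
  have b1 := hbf I x hx
  have b2 := hbg I x hx
  simp only [Polynomial.eval_add, Polynomial.eval_mul, Polynomial.eval_ofNat, Polynomial.eval_X]
  omega

theorem OPT.ite {D : Inst → List Bool → Prop} {c f g : Inst → List Bool → List Bool}
    (hc : OPT D c) (hf : OPT (fun I x => D I x ∧ (c I x).head? = some true) f)
    (hg : OPT (fun I x => D I x ∧ (c I x).head? ≠ some true) g) :
    OPT D (fun I x => if (c I x).head? = some true then f I x else g I x) := by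
  obtain ⟨bc, hbc⟩ := hc.bound
  obtain ⟨cc, r, hcc⟩ := hc
  obtain ⟨cf, p, hcf⟩ := hf
  obtain ⟨cg, q, hcg⟩ := hg
  refine ⟨.seq (.cmd dup) (.seq (cc.shift 1) (.ite 1 cg (.seq (.cmd (clear 1)) cf)
    (.seq (.cmd (clear 1)) cg))),
    r + p + q + 13 * Polynomial.X + 2 * bc + 5, fun I x hx => ?_⟩
  have h1 := run_dup x
  have h2 := ocall_one (hcc I x hx) x
  have b1 := hbc I x hx
  have h3 : ORun I (.ite 1 cg (.seq (.cmd (clear 1)) cf) (.seq (.cmd (clear 1)) cg))
      (st4 x (c I x) [] [])
      (init (if (c I x).head? = some true then f I x else g I x))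
      (2 + 2 * bc.eval (x.length + I.sz) + p.eval (x.length + I.sz) + q.eval (x.length + I.sz)) := by
    have hcl : ORun I (.cmd (clear 1)) (st4 x (c I x) [] []) (init x) (2 * (c I x).length + 1) :=
      ORun.cmd ((run_clear 1 _).of_eq (by simp [init_eq_st4]) (by simp))
    rcases hcx : c I x with _ | ⟨b, l⟩
    · have := hcg I x ⟨hx, by simp [hcx]⟩
      rw [init_eq_st4 x] at this
      simpa using (ORun.ite_nil (k := 1) (e := cg) (c := .seq (.cmd (clear 1)) cf)
        (d := .seq (.cmd (clear 1)) cg) (s := st4 x [] [] []) rfl this).mono (by omega)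
    · rw [hcx] at hcl b1
      cases b
      · simpa using (ORun.ite_false (k := 1) (e := cg) (c := .seq (.cmd (clear 1)) cf)
          (d := .seq (.cmd (clear 1)) cg) (s := st4 x (false :: l) [] []) (l := l) rfl
          (hcl.seq (hcg I x ⟨hx, by simp [hcx]⟩))).mono (by omega)
      · simpa using (ORun.ite_true (k := 1) (e := cg) (c := .seq (.cmd (clear 1)) cf)
          (d := .seq (.cmd (clear 1)) cg) (s := st4 x (true :: l) [] []) (l := l) rfl
          (hcl.seq (hcf I x ⟨hx, by simp [hcx]⟩))).mono (by omega)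
  refine ((ORun.cmd h1).seq (h2.seq h3)).mono ?_
  simp only [Polynomial.eval_add, Polynomial.eval_mul, Polynomial.eval_ofNat, Polynomial.eval_X]
  omega

/-! ### bounded iteration -/

theorem orun_iter_loop {I : Inst} {c : OCmd} {f : List Bool → List Bool} {n : ℕ} (u y : List Bool)
    (h : ∀ i < u.length, ORun I c (init (f^[i] y)) (init (f (f^[i] y))) n) :
    ORun I (.loop 0 (.seq (.cmd (.pop 0)) (c.shift 1))) (st4 u y [] [])
      (st4 [] (f^[u.length] y) [] []) (u.length * (n + 2) + 1) := by
  induction u generalizing y with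
  | nil =>
    exact (ORun.loop_nil (k := 0) (c := .seq (.cmd (.pop 0)) (c.shift 1))
      (s := st4 [] y [] []) rfl).of_eq (by simp) (by simp)
  | cons b u ih =>
    have h1 : ORun I (.cmd (.pop 0)) (st4 (b :: u) y [] []) (st4 u y [] []) 1 :=
      ORun.cmd ((run_pop 0 _).of_eq (by simp) le_rfl)
    have h2 : ORun I (c.shift 1) (st4 u y [] []) (st4 u (f y) [] []) n :=
      ocall_one (h 0 (by simp)) u
    have h3 := ih (f y) (fun i hi => by
      have := h (i + 1) (by simpa using hi)
      simpa only [iterate_succ, comp_apply] using this)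
    refine (ORun.loop_cons (k := 0) (by simp) (h1.seq h2) h3).of_eq (by simp) ?_
    simp only [List.length_cons]
    ring_nf
    omega

/-- Bounded iteration: `u` supplies the number of rounds, `s` the start value. -/
theorem OPT.iter' {D D' : Inst → List Bool → Prop} {f u s : Inst → List Bool → List Bool}
    (hf : OPT D' f) (hu : OPT D u) (hs : OPT D s)
    (hD : ∀ I x, D I x → ∀ i < (u I x).length, D' I ((f I)^[i] (s I x)))
    (hb : ∃ p : Polynomial ℕ, ∀ I x, D I x → ∀ i ≤ (u I x).length,
      ((f I)^[i] (s I x)).length ≤ p.eval (x.length + I.sz)) :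
    OPT D (fun I x => (f I)^[(u I x).length] (s I x)) := by
  obtain ⟨B, hB⟩ := hb
  obtain ⟨bu, hbu⟩ := hu.bound
  obtain ⟨cf, p, hcf⟩ := hf
  obtain ⟨cu, q, hcu⟩ := hu
  obtain ⟨cs, r, hcs⟩ := hs
  refine ⟨.seq (oboth cu cs) (.seq (.cmd (.seq (mv 1 0) (.seq (mv 2 3) (mv 3 1))))
    (.seq (.loop 0 (.seq (.cmd (.pop 0)) (cf.shift 1))) (.cmd (.seq (mv 1 2) (mv 2 0))))),
    q + r + 21 * Polynomial.X + 4 * bu + bu * (p.comp (B + Polynomial.X) + 2) + 16 * B + 11,
      fun I x hx => ?_⟩
  have h1 := orun_both (hcu I x hx) (hcs I x hx)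
  have h2 : Run (mv 1 0) (st4 [] (u I x) (s I x) []) (st4 (u I x).reverse [] (s I x) [])
      (4 * (u I x).length + 1) := (run_mv (by decide) _).of_eq (by simp) (by simp)
  have h3 : Run (mv 2 3) (st4 (u I x).reverse [] (s I x) [])
      (st4 (u I x).reverse [] [] (s I x).reverse) (4 * (s I x).length + 1) :=
    (run_mv (by decide) _).of_eq (by simp) (by simp)
  have h4 : Run (mv 3 1) (st4 (u I x).reverse [] [] (s I x).reverse)
      (st4 (u I x).reverse (s I x) [] []) (4 * (s I x).length + 1) :=
    (run_mv (by decide) _).of_eq (by simp) (by simp)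
  have h5 : ORun I (.loop 0 (.seq (.cmd (.pop 0)) (cf.shift 1))) (st4 (u I x).reverse (s I x) [] [])
      (st4 [] ((f I)^[(u I x).length] (s I x)) [] [])
      ((u I x).length * (p.eval (B.eval (x.length + I.sz) + (x.length + I.sz)) + 2) + 1) := by
    have := orun_iter_loop (I := I) (c := cf) (f := f I)
      (n := p.eval (B.eval (x.length + I.sz) + (x.length + I.sz))) (u I x).reverse (s I x)
      (fun i hi => (hcf I _ (hD I x hx i (by simpa using hi))).mono (polyEval_mono p
        (Nat.add_le_add (hB I x hx i (by simpa using hi.le)) (by omega))))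
    simpa using this
  have h6 : Run (mv 1 2) (st4 [] ((f I)^[(u I x).length] (s I x)) [] [])
      (st4 [] [] ((f I)^[(u I x).length] (s I x)).reverse [])
      (4 * ((f I)^[(u I x).length] (s I x)).length + 1) :=
    (run_mv (by decide) _).of_eq (by simp) (by simp)
  have h7 : Run (mv 2 0) (st4 [] [] ((f I)^[(u I x).length] (s I x)).reverse [])
      (init ((f I)^[(u I x).length] (s I x)))
      (4 * ((f I)^[(u I x).length] (s I x)).length + 1) :=
    (run_mv (by decide) _).of_eq (by simp [init_eq_st4]) (by simp)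
  refine (h1.seq ((ORun.cmd (h2.seq (h3.seq h4))).seq (h5.seq (ORun.cmd (h6.seq h7))))).mono ?_
  have b1 := hbu I x hx
  have b2 := hB I x hx 0 (by simp)
  have b3 := hB I x hx (u I x).length le_rfl
  have b4 : (u I x).length * (p.eval (B.eval (x.length + I.sz) + (x.length + I.sz)) + 2) ≤
      bu.eval (x.length + I.sz) * (p.eval (B.eval (x.length + I.sz) + (x.length + I.sz)) + 2) :=
    Nat.mul_le_mul_right _ b1
  simp only [iterate_zero, id_eq] at b2
  simp only [Polynomial.eval_add, Polynomial.eval_mul, Polynomial.eval_ofNat, Polynomial.eval_X,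
    Polynomial.eval_comp]
  omega

end Crest.Agent.R302.ORAM
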