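import Crest.Agent.R302.ORAM.Machine
import Crest.Agent.R309.RAMSpec

/-!
# One-shot randomised oracle computations on the oracle word RAM
-/

set_option autoImplicit false

namespace Crest.Agent.R302.ORAM

open Crest.WordRAM hiding init
open Crest.OracleRAM
open Crest.Agent.R309.RAM
open Crest.Agent.Lib.PT Function
open scoped ENNReal

/-- the probability of an event as an average -/
theorem ofReal_oprobAfter (P : OProgram) (n : ℕ) (O : Orc n) (w : ℕ) (input : List ℕ) (T : ℕ)
    (E : OCfg P.numRegs → Prop) :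
    ENNReal.ofReal (oprobAfter P n O w input T E) =
      A w T (fun y => ind (E (orun P n O w y input T))) := by
  classical
  rw [A_eq_sum]
  unfold oprobAfter Crest.FinProb.uniformProb
  rw [ENNReal.ofReal_div_of_pos (by positivity)]
  congr 1
  · rw [ENNReal.ofReal_natCast]
    unfold ind
    rw [Finset.sum_boole]
    congr 2
  · rw [Fintype.card_fun, Fintype.card_fin, Fintype.card_fin, ENNReal.ofReal_natCast]
    push_cast
    rfl

theorem oprobAfter_nonneg (P : OProgram) (n : ℕ) (O : Orc n) (w : ℕ) (input : List ℕ) (T : ℕ)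
    (E : OCfg P.numRegs → Prop) : 0 ≤ oprobAfter P n O w input T E := by
  unfold oprobAfter Crest.FinProb.uniformProb
  positivity

/-- the probability when the outcome is a function of the first `N` random bits -/
theorem oprobAfter_eq {P : OProgram} {n : ℕ} {O : Orc n} {w : ℕ} {input : List ℕ} {T N : ℕ}
    (hw : 1 ≤ w) (hN : N ≤ T) (E : OCfg P.numRegs → Prop) (G : List Bool → Prop)
    (h : ∀ ρ, E (orun P n O w ρ input T) ↔ G (rbits w ρ 0 N)) :
    oprobAfter P n O w input T E = Crest.Agent.R309.Tape.pr N G := by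
  have h1 : ENNReal.ofReal (oprobAfter P n O w input T E) = B N (fun τ => ind (G τ)) := by
    rw [ofReal_oprobAfter]
    have h2 : ∀ y, ind (E (orun P n O w y input T)) = ind (G (rbits w y 0 N)) := by
      intro y
      rw [propext (h y)]
    simp only [h2]
    obtain ⟨m, rfl⟩ := Nat.exists_eq_add_of_le hN
    have key : ∀ x : List ℕ, x.length = N →
        A w m (fun y => ind (G (rbits w (sapp x y) 0 N))) = ind (G (bits w x)) := by
      intro x hx
      have : ∀ y, rbits w (sapp x y) 0 N = bits w x := by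
        intro y
        have := Sim.rbits_sapp w x y 0
        rw [hx] at this
        rw [← this, Sim.plc_zero]
      simp only [this]
      exact A_const _
    exact le_antisymm (A_le_B hw m N _ _ fun x hx => (key x hx).le)
      (B_le_A hw m N _ _ fun x hx => (key x hx).ge)
  have h3 := ofReal_avg N (fun τ => Crest.Agent.R309.Tape.ind (G τ))
    fun τ _ => Crest.Agent.R309.Tape.ind_nonneg _
  have h4 : ENNReal.ofReal (Crest.Agent.R309.Tape.pr N G) = B N (fun τ => ind (G τ)) := by
    unfold Crest.Agent.R309.Tape.pr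
    rw [h3.2]
    simp only [ofReal_ind]
  rw [← h4] at h1
  exact (ENNReal.ofReal_eq_ofReal_iff (oprobAfter_nonneg _ _ _ _ _ _ _) h3.1).1 h1

/-- the first `N` of `M` random bits -/
theorem take_rbits (w : ℕ) (ρ : ℕ → ℕ) : ∀ (N M d : ℕ), N ≤ M →
    (rbits w ρ d M).take N = rbits w ρ d N := by
  intro N
  induction N with
  | zero => intro M d _; simp [rbits]
  | succ N ih =>
    intro M d h
    obtain ⟨M, rfl⟩ := Nat.exists_eq_succ_of_ne_zero (show M ≠ 0 by omega)
    simp only [rbits, List.take_succ_cons]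
    rw [ih M (d + 1) (by omega)]

/-- **One-shot randomised oracle computations.** The input words `L` (the first one is `n`) with the
word `2 ^ (w - 1)` appended are turned into a typed input by `pre` (computable on the domain `D`);
`N` random bits are drawn; the output is the list of words `F`. -/
theorem oneshot {α : Type} [PTCode α] {D : Inst → List ℕ → Prop} {pre : Inst → List ℕ → α}
    {g : Inst → List Bool → List Bool} (hg : OPT (fun I x => ∃ L, D I L ∧ x = enc L) g)
    (hpre : ∀ I L, D I L → g I (enc L) = enc (pre I L)) {N : α → ℕ} (hN : PTU N)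
    {F : Inst → α × List Bool → List ℕ} (hF : OPTF F) :
    ∃ (P : OProgram) (q : Polynomial ℕ), ∀ (I : Inst) (w : ℕ) (L : List ℕ),
      D I (L ++ [2 ^ (w - 1)]) → L.head? = some I.n → (∀ a ∈ L, a + 1 < 2 ^ w) →
      (∀ b A, I.O b A + 1 < 2 ^ w) → q.eval (sz L + w + I.sz) ≤ 2 ^ w →
      (∀ τ : List Bool, τ.length = N (pre I (L ++ [2 ^ (w - 1)])) →
        ∀ a ∈ F I (pre I (L ++ [2 ^ (w - 1)]), τ), a < 2 ^ w) →
      ∀ T, q.eval (sz L + w + I.sz) ≤ T →
        1 ≤ w ∧ N (pre I (L ++ [2 ^ (w - 1)])) ≤ T ∧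
        ∀ ρ, (orun P I.n I.O w ρ L T).cfg.halted = true ∧
          (orun P I.n I.O w ρ L T).cfg.output = F I (pre I (L ++ [2 ^ (w - 1)]),
            rbits w ρ 0 (N (pre I (L ++ [2 ^ (w - 1)])))) := by
  obtain ⟨NR, hNR, hN⟩ := hN
  obtain ⟨FR, hFR, hF⟩ := hF
  obtain ⟨bv, hbv, hbv'⟩ : PTF (fun b : Bits => b.val) := PTF.bitsVal PTF.id
  have hbv'' : ∀ l : List Bool, bv l = enc l := fun l => hbv' ⟨l⟩
  -- first program
  let hf : Inst → List Bool → List Bool := fun I z =>
    pair (g I z.tail) (NR (g I z.tail))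
  have hgt : OPT (fun I z => ∃ L, D I L ∧ z = false :: enc L) (fun I z => g I z.tail) := by
    refine hg.comp (OPT.of_pt PT.tail) ?_
    rintro I _ ⟨L, hL, rfl⟩
    exact ⟨L, hL, rfl⟩
  have hhf : OPT (fun I z => ∃ L, D I L ∧ z = false :: enc L) hf :=
    OPT.pair hgt ((OPT.of_pt (D := fun _ _ => True) hNR).comp hgt fun _ _ _ => trivial)
  -- second program
  let cf : Inst → List Bool → List Bool := fun I z =>
    true :: FR I (pair (fst (fst z)) (bv ((snd z).take (snd (fst z)).length)))
  have hcf : OPT (fun _ z => ∃ (x : α) (m : ℕ) (τ : List Bool),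
      z = pair (pair (enc x) (List.replicate m true)) τ) cf := by
    refine (OPT.of_pt (D := fun _ _ => True) (PT.cons true)).comp (hFR.comp (OPT.of_pt
      (PT.pair (PT.fst' PT.fst) (hbv.comp (PT.take' (PT.snd' PT.fst) PT.snd)))) ?_)
      fun _ _ _ => trivial
    rintro I _ ⟨x, m, τ, rfl⟩
    refine ⟨(x, τ.take m), ?_⟩
    simp only [core_fst_pair, core_snd_pair, List.length_replicate, enc_prod, hbv'']
  obtain ⟨bh, hbh⟩ := hhf.bound
  obtain ⟨bc, hbc⟩ := hcf.bound
  obtain ⟨h, ph, hh⟩ := hhf
  obtain ⟨c, pc, hc⟩ := hcf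
  set K := max h.maxVar c.maxVar + 3 with hK
  -- polynomials
  set pX : Polynomial ℕ := Polynomial.X with hpX
  set N1 : Polynomial ℕ := ph.comp (3 * pX + 2) with hN1
  set S1 : Polynomial ℕ := bh.comp (3 * pX + 2) with hS1
  set N2 : Polynomial ℕ := pc.comp (3 * S1 + 1 + pX) with hN2
  set O1 : Polynomial ℕ := bc.comp (3 * S1 + 1 + pX) with hO1
  set H1 : Polynomial ℕ := 2 * pX + 14 + N1 + 16 * S1 + N2 with hH1
  refine ⟨omachine K h c, 2 * (Polynomial.C K * (H1 + 1)) + 4 * pX + 3 * Polynomial.C K + 50 +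
    (10 + 12 * pX) * (pX + 1) + (12 + 12 * pX) * N1 + 75 * S1 + (12 + 12 * pX) * N2 + 11 * O1, ?_⟩
  intro I w L hD hn hL hI hq hout T hT
  set x : ℕ := sz L + w + I.sz with hx
  set L' : List ℕ := L ++ [2 ^ (w - 1)] with hL'
  have ev1 : N1.eval x = ph.eval (3 * x + 2) := by simp [hN1, hpX, Polynomial.eval_comp]
  have ev2 : S1.eval x = bh.eval (3 * x + 2) := by simp [hS1, hpX, Polynomial.eval_comp]
  have ev3 : N2.eval x = pc.eval (3 * S1.eval x + 1 + x) := by
    simp [hN2, hpX, Polynomial.eval_comp]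
  have ev4 : O1.eval x = bc.eval (3 * S1.eval x + 1 + x) := by
    simp [hO1, hpX, Polynomial.eval_comp]
  have ev5 : H1.eval x = 2 * x + 14 + N1.eval x + 16 * S1.eval x + N2.eval x := by
    simp [hH1, hpX]
  have evq : (2 * (Polynomial.C K * (H1 + 1)) + 4 * pX + 3 * Polynomial.C K + 50 +
      (10 + 12 * pX) * (pX + 1) + (12 + 12 * pX) * N1 + 75 * S1 + (12 + 12 * pX) * N2 +
      11 * O1 : Polynomial ℕ).eval x = 2 * (K * (H1.eval x + 1)) + 4 * x + 3 * K + 50 +
      (10 + 12 * x) * (x + 1) + (12 + 12 * x) * N1.eval x + 75 * S1.eval x +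
      (12 + 12 * x) * N2.eval x + 11 * O1.eval x := by
    simp [hpX]
  rw [evq] at hq hT
  have hw2 : 2 ≤ w := by
    by_contra hlt
    have h1 : 2 ^ w ≤ 2 ^ 1 := Nat.pow_le_pow_right (by omega) (by omega)
    omega
  have hB := two_pow_half (show 1 ≤ w by omega)
  have hHw : K * (H1.eval x + 1) ≤ 2 ^ (w - 1) := by omega
  have hszL' : (enc L').length = sz L + 2 * w + 1 := by
    have : sz L' = sz L + sz ([2 ^ (w - 1)] : List ℕ) := sz_append _ _
    have h2 : sz (2 ^ (w - 1)) = w := by
      rw [sz_nat, Nat.size_pow]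
      omega
    rw [sz_cons, sz_nil, h2] at this
    show sz L' = _
    omega
  have hlenz : (false :: enc L').length + I.sz ≤ 3 * x + 2 := by
    rw [List.length_cons, hszL']
    omega
  have hdom : ∃ L, D I L ∧ false :: enc L' = false :: enc L := ⟨L', hD, rfl⟩
  set y : α := pre I L' with hy
  have hs : hf I (false :: enc L') = pair (enc y) (List.replicate (N y) true) := by
    simp only [hf, List.tail_cons]
    rw [hpre I L' hD, hN]
    rfl
  set s : List Bool := pair (enc y) (List.replicate (N y) true) with hsdef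
  have hslen : s.length ≤ S1.eval x := by
    have := hbh I _ hdom
    rw [hs] at this
    rw [ev2]
    exact this.trans (polyEval_mono bh hlenz)
  have hNs : N y ≤ s.length := by
    rw [hsdef, core_length_pair, List.length_replicate]
    omega
  refine ⟨by omega, ?_, ?_⟩
  · have h75 : 75 * S1.eval x ≤ T := by omega
    omega
  intro ρ
  set τ : List Bool := rbits w ρ 0 s.length with hτ
  have hrun : ORun I h (init (false :: enc L')) (init s) (N1.eval x) := by
    have := hh I _ hdom
    rw [hs] at this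
    refine this.mono ?_
    rw [ev1]
    exact polyEval_mono ph hlenz
  have hdom2 : ∃ (x : α) (m : ℕ) (τ' : List Bool),
      pair s τ = pair (pair (enc x) (List.replicate m true)) τ' := ⟨y, N y, τ, rfl⟩
  have hlen2 : (pair s τ).length + I.sz ≤ 3 * S1.eval x + 1 + x := by
    rw [core_length_pair, hτ, rbits_length]
    omega
  set out : List ℕ := F I (y, rbits w ρ 0 (N y)) with hout'
  have hcs : cf I (pair s τ) = true :: enc out := by
    simp only [cf, core_fst_pair, core_snd_pair, hsdef, List.length_replicate]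
    rw [hbv'', hτ, take_rbits w ρ (N y) s.length 0 hNs, hout', ← hF, enc_prod]
  have hrun' : ORun I c (init (pair s τ)) (init (true :: enc out)) (N2.eval x) := by
    have := hc I _ hdom2
    rw [hcs] at this
    refine this.mono ?_
    rw [ev3]
    exact polyEval_mono pc hlen2
  have hol : (enc out).length ≤ O1.eval x := by
    have := hbc I _ hdom2
    rw [hcs, List.length_cons] at this
    rw [ev4]
    have h2 := this.trans (polyEval_mono bc hlen2)
    omega
  have holen := length_le_enc out
  have hLlen := length_le_sz L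
  refine omachine_run ρ (by omega) (by omega) (by omega) hw2 hHw I hI L hn hL hrun hrun'
    (hout _ (rbits_length _ _ _ _)) (by omega) (by rw [← hL', hszL', ev5]; omega)
    (by rw [ev5]; omega) T ?_
  have m1 : (10 + 12 * w) * (L.length + 1) ≤ (10 + 12 * x) * (x + 1) :=
    Nat.mul_le_mul (by omega) (by omega)
  have m2 : (12 + 12 * w) * N1.eval x ≤ (12 + 12 * x) * N1.eval x :=
    Nat.mul_le_mul_right _ (by omega)
  have m3 : (12 + 12 * w) * N2.eval x ≤ (12 + 12 * x) * N2.eval x :=
    Nat.mul_le_mul_right _ (by omega)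
  omega

end Crest.Agent.R302.ORAM
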