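import Crest.Agent.R302.ORAM.Fpras

/-!
# The matroid rank oracle computed from the independence oracle

* `greedyL`, `rkL`: the greedy algorithm on lists of bits; `rkL_eq`: it computes the rank;
* `optf_rkL`: it is polynomial time relative to the oracle;
* `mrk_isPolymatroidRank`, `count_mrk`: matroid rank functions are polymatroid rank functions and
  the common integer bases are the common bases.
-/

set_option autoImplicit false
set_option linter.dupNamespace false

namespace Crest.Agent.R302.ORAM

open Crest.Polymatroid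
open Crest.Agent.Lib.PT Function

/-! ### lists of bits as sets -/

theorem mem_lset {n : ℕ} {l : List Bool} {j : Fin n} : j ∈ lset n l ↔ l[(j : ℕ)]? = some true := by
  simp [lset]

theorem lset_nil (n : ℕ) : lset n [] = ∅ := by
  ext j
  simp [mem_lset]

theorem lset_append_false (n : ℕ) (l : List Bool) : lset n (l ++ [false]) = lset n l := by
  ext j
  rw [mem_lset, mem_lset]
  by_cases h : (j : ℕ) < l.length
  · rw [List.getElem?_append_left h]
  · rw [List.getElem?_append_right (by omega), List.getElem?_eq_none (l := l) (by omega)]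
    rcases hk : (j : ℕ) - l.length with _ | k <;> simp

theorem lset_append_true {n : ℕ} (l : List Bool) (h : l.length < n) :
    lset n (l ++ [true]) = insert (⟨l.length, h⟩ : Fin n) (lset n l) := by
  ext j
  rw [Finset.mem_insert, mem_lset, mem_lset]
  by_cases hj : (j : ℕ) < l.length
  · rw [List.getElem?_append_left hj]
    constructor
    · exact fun h' => Or.inr h'
    · rintro (h' | h')
      · rw [h'] at hj
        simp at hj
      · exact h'
  · rw [List.getElem?_append_right (by omega), List.getElem?_eq_none (l := l) (by omega)]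
    by_cases hk : (j : ℕ) = l.length
    · have : j = ⟨l.length, h⟩ := Fin.ext hk
      simp [this]
    · have h1 : j ≠ ⟨l.length, h⟩ := fun h' => hk (by rw [h'])
      have h2 : ([true] : List Bool)[(j : ℕ) - l.length]? = none :=
        List.getElem?_eq_none (by simp only [List.length_cons, List.length_nil]; omega)
      simp [h1, h2]

theorem notMem_lset {n : ℕ} (l : List Bool) (h : l.length < n) :
    (⟨l.length, h⟩ : Fin n) ∉ lset n l := by
  rw [mem_lset, List.getElem?_eq_none le_rfl]
  simp

theorem lset_take (n : ℕ) (l : List Bool) : lset n (l.take n) = lset n l := by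
  ext j
  rw [mem_lset, mem_lset, List.getElem?_take_of_lt j.2]

theorem card_lset {n : ℕ} (l : List Bool) (h : l.length ≤ n) :
    (lset n l).card = (l.filter fun b => b).length := by
  induction l using List.reverseRecOn with
  | nil => simp [lset_nil]
  | append_singleton l b ih =>
    rw [List.length_append, List.length_singleton] at h
    have ih' := ih (by omega)
    cases b
    · rw [lset_append_false, ih', List.filter_append]
      simp
    · rw [lset_append_true l (by omega), Finset.card_insert_of_notMem (notMem_lset l _), ih',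
        List.filter_append]
      simp

/-! ### the greedy algorithm -/

/-- one step: `S` is the current independent set, `b` says whether the next element is asked for -/
def gstep (q : List Bool → ℕ) (S : List Bool) (b : Bool) : List Bool :=
  if (b && decide (q (S ++ [true]) ≠ 0)) = true then S ++ [true] else S ++ [false]

/-- the greedy basis of the set coded by `l` -/
def greedyL (q : List Bool → ℕ) (l : List Bool) : List Bool := l.foldl (gstep q) []

/-- the greedy rank -/
def rkL (q : List Bool → ℕ) (n : ℕ) (l : List Bool) : ℕ :=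
  ((greedyL q (l.take n)).filter fun b => b).length

theorem length_gstep (q : List Bool → ℕ) (S : List Bool) (b : Bool) :
    (gstep q S b).length = S.length + 1 := by
  unfold gstep
  split <;> simp

theorem length_greedyL (q : List Bool → ℕ) (l : List Bool) : (greedyL q l).length = l.length := by
  unfold greedyL
  induction l using List.reverseRecOn with
  | nil => rfl
  | append_singleton l b ih =>
    rw [List.foldl_append, List.foldl_cons, List.foldl_nil, length_gstep, ih]
    simp

theorem greedyL_basis {n : ℕ} {M : Matroid (Fin n)} (hM : M.E = Set.univ) {q : List Bool → ℕ}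
    (hq : ∀ l, q l ≠ 0 ↔ M.Indep (lset n l : Set (Fin n))) (l : List Bool) (h : l.length ≤ n) :
    M.IsBasis (lset n (greedyL q l) : Set (Fin n)) (lset n l : Set (Fin n)) := by
  induction l using List.reverseRecOn with
  | nil =>
    have : greedyL q [] = [] := rfl
    rw [this, lset_nil]
    simp
  | append_singleton l b ih =>
    rw [List.length_append, List.length_singleton] at h
    have ih' := ih (by omega)
    have hg : greedyL q (l ++ [b]) = gstep q (greedyL q l) b := by
      unfold greedyL
      rw [List.foldl_append, List.foldl_cons, List.foldl_nil]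
    have hlen := length_greedyL q l
    set S := greedyL q l with hS
    rw [hg]
    have hlt : l.length < n := by omega
    have he : (⟨S.length, by omega⟩ : Fin n) = ⟨l.length, hlt⟩ := Fin.ext hlen
    cases b
    · have : gstep q S false = S ++ [false] := by simp [gstep]
      rw [this, lset_append_false, lset_append_false]
      exact ih'
    · rw [lset_append_true l hlt, Finset.coe_insert]
      by_cases hc : q (S ++ [true]) ≠ 0
      · have : gstep q S true = S ++ [true] := by simp [gstep, hc]
        rw [this, lset_append_true S (by omega), Finset.coe_insert, he]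
        refine ih'.insert_isBasis_insert ?_
        have := (hq _).1 hc
        rwa [lset_append_true S (by omega), Finset.coe_insert, he] at this
      · have : gstep q S true = S ++ [false] := by simp [gstep, not_not.1 hc]
        rw [this, lset_append_false]
        have hni : ¬ M.Indep (insert (⟨l.length, hlt⟩ : Fin n) (lset n S : Set (Fin n))) := by
          intro hi
          apply hc
          rw [hq, lset_append_true S (by omega), Finset.coe_insert, he]
          exact hi
        refine (ih'.indep.isBasis_iff_forall_insert_dep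
          (ih'.subset.trans (Set.subset_insert _ _))).2 ?_
        intro f hf
        rcases hf with ⟨hf1, hf2⟩
        rcases Set.mem_insert_iff.1 hf1 with rfl | hf1
        · exact ⟨hni, by rw [hM]; exact Set.subset_univ _⟩
        · exact ih'.insert_dep ⟨hf1, hf2⟩

/-! ### the rank function of a matroid -/

/-- rank of a finite set -/
noncomputable def mrk {n : ℕ} (M : Matroid (Fin n)) (A : Finset (Fin n)) : ℕ :=
  (M.eRk (A : Set (Fin n))).toNat

theorem coe_mrk {n : ℕ} (M : Matroid (Fin n)) (A : Finset (Fin n)) :
    ((mrk M A : ℕ) : ℕ∞) = M.eRk (A : Set (Fin n)) := by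
  refine ENat.natCast_toNat ?_
  refine ne_top_of_le_ne_top ?_ (M.eRk_le_encard (A : Set (Fin n)))
  rw [Set.encard_coe_eq_coe_finsetCard]
  exact ENat.natCast_ne_top _

theorem mrk_mono {n : ℕ} (M : Matroid (Fin n)) {A B : Finset (Fin n)} (h : A ⊆ B) :
    mrk M A ≤ mrk M B := by
  have : ((mrk M A : ℕ) : ℕ∞) ≤ (mrk M B : ℕ) := by
    rw [coe_mrk, coe_mrk]
    exact M.eRk_mono (by exact_mod_cast h)
  exact_mod_cast this

theorem mrk_isPolymatroidRank {n : ℕ} (M : Matroid (Fin n)) : IsPolymatroidRank (mrk M) := by
  refine ⟨?_, fun A B h => mrk_mono M h, fun A B => ?_⟩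
  · have : ((mrk M ∅ : ℕ) : ℕ∞) = (0 : ℕ) := by
      rw [coe_mrk]
      simp
    exact_mod_cast this
  · have : ((mrk M (A ∪ B) + mrk M (A ∩ B) : ℕ) : ℕ∞) ≤ ((mrk M A + mrk M B : ℕ) : ℕ∞) := by
      push_cast
      rw [coe_mrk, coe_mrk, coe_mrk, coe_mrk, Finset.coe_union, Finset.coe_inter, add_comm]
      exact M.eRk_inter_add_eRk_union_le _ _
    exact_mod_cast this

theorem mrk_univ {n R : ℕ} {M : Matroid (Fin n)} (hM : M.E = Set.univ) (hR : M.eRank = R) :
    mrk M Finset.univ = R := by
  have : ((mrk M Finset.univ : ℕ) : ℕ∞) = (R : ℕ) := by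
    rw [coe_mrk, Finset.coe_univ, ← hM, M.eRk_ground, hR]
  exact_mod_cast this

theorem mrk_le_card {n : ℕ} (M : Matroid (Fin n)) (A : Finset (Fin n)) : mrk M A ≤ A.card := by
  have : ((mrk M A : ℕ) : ℕ∞) ≤ (A.card : ℕ) := by
    rw [coe_mrk, ← Set.encard_coe_eq_coe_finsetCard]
    exact M.eRk_le_encard _
  exact_mod_cast this

theorem indep_of_card_le {n : ℕ} {M : Matroid (Fin n)} {A : Finset (Fin n)}
    (h : A.card ≤ mrk M A) : M.Indep (A : Set (Fin n)) := by
  refine (M.indep_iff_eRk_eq_encard_of_finite A.finite_toSet).2 ?_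
  rw [Set.encard_coe_eq_coe_finsetCard, ← coe_mrk]
  exact_mod_cast le_antisymm (mrk_le_card M A) h

theorem mrk_of_indep {n : ℕ} {M : Matroid (Fin n)} {A : Finset (Fin n)}
    (h : M.Indep (A : Set (Fin n))) : mrk M A = A.card := by
  have : ((mrk M A : ℕ) : ℕ∞) = (A.card : ℕ) := by
    rw [coe_mrk, h.eRk_eq_encard, Set.encard_coe_eq_coe_finsetCard]
  exact_mod_cast this

theorem isBase_iff_card {n R : ℕ} {M : Matroid (Fin n)} (hR : M.eRank = R)
    (B : Finset (Fin n)) : M.IsBase (B : Set (Fin n)) ↔ M.Indep (B : Set (Fin n)) ∧ B.card = R := by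
  constructor
  · intro h
    refine ⟨h.indep, ?_⟩
    have : ((B.card : ℕ) : ℕ∞) = (R : ℕ) := by
      rw [← Set.encard_coe_eq_coe_finsetCard, h.encard_eq_eRank, hR]
    exact_mod_cast this
  · rintro ⟨hi, hc⟩
    refine hi.isBase_of_maximal fun J hJ hBJ => ?_
    refine Set.Finite.eq_of_subset_of_encard_le B.finite_toSet hBJ ?_
    rw [Set.encard_coe_eq_coe_finsetCard, hc, ← hR]
    exact hJ.encard_le_eRank

/-- the common integer bases of two matroids are their common bases -/
theorem count_mrk {n R : ℕ} {M₁ M₂ : Matroid (Fin n)} (h₁ : M₁.eRank = R) (h₂ : M₂.eRank = R) :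
    numCommonIntBases R (mrk M₁) (mrk M₂) = numCommonBases M₁ M₂ := by
  classical
  unfold numCommonIntBases numCommonBases
  have key : ∀ x : Fin n → Fin (R + 1), (∑ j, (x j : ℕ)) = R →
      (∀ A : Finset (Fin n), (∑ j ∈ A, (x j : ℕ)) ≤ mrk M₁ A ∧ (∑ j ∈ A, (x j : ℕ)) ≤ mrk M₂ A) →
      ∀ j, (x j : ℕ) ≤ 1 := by
    intro x _ hx j
    have := (hx {j}).1
    rw [Finset.sum_singleton] at this
    have h2 := mrk_le_card M₁ {j}
    rw [Finset.card_singleton] at h2
    omega
  have hsum : ∀ x : Fin n → Fin (R + 1), (∀ j, (x j : ℕ) ≤ 1) → ∀ A : Finset (Fin n),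
      (∑ j ∈ A, (x j : ℕ)) = (A.filter fun j => (x j : ℕ) = 1).card := by
    intro x hx A
    rw [Finset.card_filter]
    refine Finset.sum_congr rfl fun j _ => ?_
    have := hx j
    split <;> omega
  refine Finset.card_bij (fun x _ => Finset.univ.filter fun j => (x j : ℕ) = 1) ?_ ?_ ?_
  · intro x hx
    simp only [Finset.mem_filter, Finset.mem_univ, true_and] at hx ⊢
    have h01 := key x hx.1 hx.2
    set B : Finset (Fin n) := Finset.univ.filter fun j => (x j : ℕ) = 1 with hB
    have hcard : B.card = R := by
      rw [← hsum x h01 Finset.univ, hx.1]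
    have hsB : (∑ j ∈ B, (x j : ℕ)) = B.card := by
      rw [hsum x h01 B]
      congr 1
      rw [hB, Finset.filter_filter]
      simp
    have hb := hx.2 B
    rw [hsB] at hb
    exact ⟨(isBase_iff_card h₁ B).2 ⟨indep_of_card_le hb.1, hcard⟩,
      (isBase_iff_card h₂ B).2 ⟨indep_of_card_le hb.2, hcard⟩⟩
  · intro x hx y hy hxy
    simp only [Finset.mem_filter, Finset.mem_univ, true_and] at hx hy
    have hx01 := key x hx.1 hx.2
    have hy01 := key y hy.1 hy.2
    funext j
    apply Fin.ext
    have h1 : (x j : ℕ) = 1 ↔ (y j : ℕ) = 1 := by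
      have := congrArg (fun B : Finset (Fin n) => j ∈ B) hxy
      simpa using this
    have h2 := hx01 j
    have h3 := hy01 j
    omega
  · intro B hB
    simp only [Finset.mem_filter, Finset.mem_univ, true_and] at hB
    obtain ⟨hi1, hc⟩ := (isBase_iff_card h₁ B).1 hB.1
    obtain ⟨hi2, _⟩ := (isBase_iff_card h₂ B).1 hB.2
    have hlt : ∀ j, (if j ∈ B then 1 else 0) < R + 1 := by
      intro j
      split
      · rename_i hj
        have : 0 < B.card := Finset.card_pos.2 ⟨j, hj⟩
        omega
      · omega
    have hs : ∀ A : Finset (Fin n), (∑ j ∈ A, if j ∈ B then 1 else 0) = (A ∩ B).card := by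
      intro A
      rw [Finset.sum_ite_mem]
      simp
    have hrk : ∀ M : Matroid (Fin n), M.Indep (B : Set (Fin n)) → ∀ A : Finset (Fin n),
        (A ∩ B).card ≤ mrk M A := by
      intro M hM A
      have h3 : M.Indep ((A ∩ B : Finset (Fin n)) : Set (Fin n)) :=
        hM.subset (by exact_mod_cast Finset.inter_subset_right)
      rw [← mrk_of_indep h3]
      exact mrk_mono M Finset.inter_subset_left
    refine ⟨fun j => ⟨if j ∈ B then 1 else 0, hlt j⟩, ?_, ?_⟩
    · simp only [Finset.mem_filter, Finset.mem_univ, true_and]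
      refine ⟨?_, fun A => ?_⟩
      · rw [hs]
        simpa using hc
      · rw [hs]
        exact ⟨hrk M₁ hi1 A, hrk M₂ hi2 A⟩
    · ext j
      simp

theorem rkL_eq {n : ℕ} {M : Matroid (Fin n)} (hM : M.E = Set.univ) {q : List Bool → ℕ}
    (hq : ∀ l, q l ≠ 0 ↔ M.Indep (lset n l : Set (Fin n))) (l : List Bool) :
    rkL q n l = mrk M (lset n l) := by
  have hlen : (l.take n).length ≤ n := List.length_take_le _ _
  have hb := greedyL_basis hM hq (l.take n) hlen
  rw [lset_take] at hb
  have h1 : ((mrk M (lset n l) : ℕ) : ℕ∞) = ((lset n (greedyL q (l.take n))).card : ℕ) := by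
    rw [coe_mrk, hb.eRk_eq_encard, Set.encard_coe_eq_coe_finsetCard]
  have h2 : mrk M (lset n l) = (lset n (greedyL q (l.take n))).card := by exact_mod_cast h1
  rw [h2, card_lset _ (by rw [length_greedyL]; exact hlen)]
  rfl

/-! ### polynomial time -/

theorem optf_gstep : OPTF (fun I (p : (Bool × List Bool) × List Bool × Bool) =>
    gstep (I.ans p.1.1) p.2.1 p.2.2) := by
  have h1 : OPTF (fun I (p : (Bool × List Bool) × List Bool × Bool) =>
      I.ans p.1.1 (p.2.1 ++ [true])) :=
    OPTF.ans₂ (b := fun _ (p : (Bool × List Bool) × List Bool × Bool) => p.1.1)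
      (l := fun _ (p : (Bool × List Bool) × List Bool × Bool) => p.2.1 ++ [true])
      (OPTF.of_ptf (by fun_prop)) (OPTF.of_ptf (by fun_prop))
  have h2 : OPTF (fun I (p : (Bool × List Bool) × List Bool × Bool) =>
      (p.2.2 && decide (I.ans p.1.1 (p.2.1 ++ [true]) ≠ 0))) := by
    refine OPTF.post₂ (g := fun (b : Bool) (m : ℕ) => b && decide (m ≠ 0))
      (f := fun _ (p : (Bool × List Bool) × List Bool × Bool) => p.2.2) ?_
      (OPTF.of_ptf (by fun_prop)) h1
    exact PTF.and PTF.fst (PTPred.toPTF (PTPred.not (PTPred.natEq PTF.snd (PTF.const 0))))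
  refine (OPTF.cond h2 (OPTF.of_ptf (f := fun p : (Bool × List Bool) × List Bool × Bool =>
    p.2.1 ++ [true]) (by fun_prop)) (OPTF.of_ptf (f := fun p : (Bool × List Bool) × List Bool × Bool
      => p.2.1 ++ [false]) (by fun_prop))).of_eq (fun I p => ?_)
  unfold gstep
  cases (p.2.2 && decide (I.ans p.1.1 (p.2.1 ++ [true]) ≠ 0)) <;> rfl

theorem optf_rkL : OPTF (fun I (p : Bool × List Bool) => rkL (I.ans p.1) I.n p.2) := by
  have ht : OPTF (fun I (p : Bool × List Bool) => p.2.take I.n) := by
    refine OPTF.post₂ (g := fun (u : Un) (l : List Bool) => l.take u.val)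
      (f := fun I (_ : Bool × List Bool) => Un.mk I.n)
      (h := fun _ (p : Bool × List Bool) => p.2) ?_ OPTU.ground (OPTF.of_ptf (by fun_prop))
    exact PTF.take (n := fun p : Un × List Bool => p.1.val) (PTU.val PTF.fst) PTF.snd
  have hf : OPTF (fun I (p : Bool × List Bool) =>
      (p.2.take I.n).foldl (gstep (I.ans p.1)) []) := by
    refine OPTF.foldl (f := fun I (p : Bool × List Bool) S b => gstep (I.ans p.1) S b)
      (b := fun _ _ => []) ht optf_gstep (OPTF.const [])
      (B := fun _ (p : Bool × List Bool) => 3 * sz p) ((OPB.const 3).mul OPB.sz) ?_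
    intro I c i hi
    have h1 : (((c.2.take I.n).take i).foldl (fun S b => gstep (I.ans c.1) S b) []).length ≤
        c.2.length := by
      have := length_greedyL (I.ans c.1) ((c.2.take I.n).take i)
      unfold greedyL at this
      rw [this, List.length_take, List.length_take]
      omega
    have h2 : sz c = 2 * sz c.1 + 1 + sz c.2 := sz_prod c
    have h3 := length_le_sz c.2
    rw [Arith.sz_boolList]
    show 3 * _ ≤ 3 * sz c
    omega
  refine (OPTF.post (g := fun l : List Bool => (l.filter fun b => b).length) ?_ hf).of_eq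
    (fun I p => rfl)
  exact PTU.toPTF (PTU.length (PTF.filter (p := fun _ b => b) PTF.id (by pt_prop)))

end Crest.Agent.R302.ORAM
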